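import Mathlib.GroupTheory.Perm.Sign
import Vale.Agent.P193.Full.Sys

/-! Prepending a bit as endomorphisms of permutations, doubling, and placed cell permutations. -/

namespace Vale.Agent.P193

universe u

variable {X : Type u} (H : Halving X)

namespace Halving

/-- Removing the first bit. -/
def tl (x : X) : X := (H.cons.symm x).2

/-- The first bit. -/
def hd (x : X) : Bool := (H.cons.symm x).1

@[simp] lemma hd_cons (c : Bool) (x : X) : H.hd (H.cons (c, x)) = c := by simp [hd]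

@[simp] lemma tl_cons (c : Bool) (x : X) : H.tl (H.cons (c, x)) = x := by simp [tl]

lemma cons_hd_tl (x : X) : H.cons (H.hd x, H.tl x) = x := by simp [hd, tl]

lemma exists_cons (x : X) : ∃ c y, x = H.cons (c, y) :=
  ⟨H.hd x, H.tl x, (H.cons_hd_tl x).symm⟩

lemma pre_append (v w : List Bool) (x : X) : H.pre (v ++ w) x = H.pre v (H.pre w x) := by
  induction v with
  | nil => rfl
  | cons c v ih => simp [Halving.pre, ih]

lemma pre_injective (v : List Bool) : Function.Injective (H.pre v) := by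
  induction v with
  | nil => exact fun _ _ h => h
  | cons c v ih =>
    intro x y h
    exact ih (congrArg Prod.snd (H.cons.injective h))

lemma exists_pre (n : ℕ) (x : X) : ∃ v y, v.length = n ∧ x = H.pre v y := by
  induction n generalizing x with
  | zero => exact ⟨[], x, rfl, rfl⟩
  | succ n ih =>
    obtain ⟨c, y, rfl⟩ := H.exists_cons x
    obtain ⟨v, z, hv, rfl⟩ := ih y
    exact ⟨c :: v, z, by simp [hv], rfl⟩

lemma pre_eq_of_length {v w : List Bool} {x y : X} (hl : v.length = w.length)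
    (h : H.pre v x = H.pre w y) : v = w ∧ x = y := by
  induction v generalizing w with
  | nil =>
    cases w with
    | nil => exact ⟨rfl, h⟩
    | cons _ _ => simp at hl
  | cons c v ih =>
    cases w with
    | nil => simp at hl
    | cons d w =>
      have e := H.cons.injective h
      obtain ⟨e1, e2⟩ := ih (by simpa using hl) (congrArg Prod.snd e)
      have e0 : c = d := congrArg Prod.fst e
      exact ⟨by rw [e0, e1], e2⟩

/-- Act behind a fixed first bit, trivially elsewhere. -/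
def behind (c : Bool) : Equiv.Perm X →* Equiv.Perm X where
  toFun g := H.cons.permCongr (Equiv.Perm.prodExtendRight c g)
  map_one' := by
    ext x
    obtain ⟨d, y, rfl⟩ := H.exists_cons x
    by_cases h : d = c
    · subst h
      simp [Equiv.permCongr_apply, Equiv.Perm.prodExtendRight_apply_eq]
    · simp [Equiv.permCongr_apply, Equiv.Perm.prodExtendRight_apply_ne, h]
  map_mul' g g' := by
    ext x
    obtain ⟨d, y, rfl⟩ := H.exists_cons x
    by_cases h : d = c
    · subst h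
      simp [Equiv.permCongr_apply, Equiv.Perm.mul_apply, Equiv.Perm.prodExtendRight_apply_eq]
    · simp [Equiv.permCongr_apply, Equiv.Perm.mul_apply, Equiv.Perm.prodExtendRight_apply_ne, h]

lemma behind_apply_cons (c d : Bool) (g : Equiv.Perm X) (x : X) :
    H.behind c g (H.cons (d, x)) = H.cons (d, if d = c then g x else x) := by
  by_cases h : d = c
  · subst h
    simp [behind, Equiv.permCongr_apply, Equiv.Perm.prodExtendRight_apply_eq]
  · simp [behind, Equiv.permCongr_apply, Equiv.Perm.prodExtendRight_apply_ne, h]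

lemma behind_commute (g h : Equiv.Perm X) : Commute (H.behind false g) (H.behind true h) := by
  ext x
  obtain ⟨c, y, rfl⟩ := H.exists_cons x
  cases c <;> simp [Equiv.Perm.mul_apply, behind_apply_cons]

end Halving

variable {H}

/-- A set carried by the coefficient monoid. -/
def Coeff.Idem (M : Coeff H) (e : Set X) : Prop := M.mem (gid e)

lemma gdom_gidL (e : Set X) : gdom (gid e) = e := by
  ext x
  exact ⟨fun ⟨_, _, h⟩ => h, fun h => ⟨x, rfl, h⟩⟩

lemma gran_gidL (e : Set X) : gran (gid e) = e := by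
  ext x
  constructor
  · rintro ⟨y, h, hy⟩
    exact (show y = x from h) ▸ hy
  · exact fun h => ⟨x, rfl, h⟩

lemma gcomp_gid_left (e : Set X) (m : Set (X × X)) :
    gcomp (gid e) m = {p | p.1 ∈ e ∧ p ∈ m} := by
  ext ⟨x, y⟩
  constructor
  · rintro ⟨z, ⟨h, hz⟩, hzy⟩
    exact ⟨hz, (show x = z from h) ▸ hzy⟩
  · rintro ⟨he, hm⟩
    exact ⟨x, ⟨rfl, he⟩, hm⟩

namespace Coeff

variable (M : Coeff H)

lemma idem_univ : M.Idem Set.univ := M.one_mem

lemma idem_compl {e : Set X} (he : M.Idem e) : M.Idem eᶜ := by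
  have := M.compl_mem _ he
  rwa [gdom_gidL] at this

lemma idem_empty : M.Idem (∅ : Set X) := by simpa using M.idem_compl M.idem_univ

lemma idem_inter {e f : Set X} (he : M.Idem e) (hf : M.Idem f) : M.Idem (e ∩ f) := by
  have h := M.comp_mem _ _ he hf
  have : gcomp (gid e) (gid f) = gid (e ∩ f) := by
    rw [gcomp_gid_left]
    ext ⟨x, y⟩
    constructor
    · rintro ⟨a, b, c⟩
      exact ⟨b, a, c⟩
    · rintro ⟨b, a, c⟩
      exact ⟨a, b, c⟩
  rwa [this] at h

lemma idem_union {e f : Set X} (he : M.Idem e) (hf : M.Idem f) : M.Idem (e ∪ f) := by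
  have := M.idem_compl (M.idem_inter (M.idem_compl he) (M.idem_compl hf))
  rwa [← Set.compl_union, compl_compl] at this

lemma idem_diff {e f : Set X} (he : M.Idem e) (hf : M.Idem f) : M.Idem (e \ f) :=
  M.idem_inter he (M.idem_compl hf)

lemma idem_gdom {m : Set (X × X)} (hm : M.mem m) : M.Idem (gdom m) := by
  have := M.idem_compl (e := (gdom m)ᶜ) (M.compl_mem _ hm)
  rwa [compl_compl] at this

lemma idem_gran {m : Set (X × X)} (hm : M.mem m) : M.Idem (gran m) :=
  M.idem_gdom (M.inv_mem _ hm)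

/-- Idempotents do not see bits. -/
lemma idem_cons {e : Set X} (he : M.Idem e) (c : Bool) (x : X) :
    H.cons (c, x) ∈ e ↔ x ∈ e := by
  have h := M.bit _ he c c x x
  constructor
  · intro hc
    exact ((h.1 ⟨rfl, hc⟩).2).2
  · intro hx
    exact (h.2 ⟨rfl, rfl, hx⟩).2

lemma idem_pre {e : Set X} (he : M.Idem e) (v : List Bool) (x : X) :
    H.pre v x ∈ e ↔ x ∈ e := by
  induction v with
  | nil => rfl
  | cons c v ih => exact (M.idem_cons he c _).trans ih

lemma mem_pre {m : Set (X × X)} (hm : M.mem m) (v : List Bool) {x y : X} (h : (x, y) ∈ m) :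
    (H.pre v x, H.pre v y) ∈ m := by
  induction v with
  | nil => exact h
  | cons c v ih => exact (M.bit _ hm c c _ _).2 ⟨rfl, ih⟩

end Coeff

/-! ### Swaps and their images -/

lemma swapFun_eq_of_mem {b : Set (X × X)} (hb : IsPB b) {x y : X} (h : (x, y) ∈ b) :
    swapFun b x = y := by
  have hx : ∃ z, (x, z) ∈ b := ⟨y, h⟩
  rw [swapFun, dif_pos hx]
  exact hb.1 _ _ _ hx.choose_spec h

lemma swapFun_eq_of_mem' {b : Set (X × X)} (hb : IsPB b) (hd : Disjoint (gdom b) (gran b))
    {x y : X} (h : (x, y) ∈ b) : swapFun b y = x := by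
  have hy : ¬ ∃ z, (y, z) ∈ b := fun hz => Set.disjoint_left.1 hd hz ⟨x, h⟩
  have hy' : ∃ z, (z, y) ∈ b := ⟨x, h⟩
  rw [swapFun, dif_neg hy, dif_pos hy']
  exact hb.2 _ _ _ hy'.choose_spec h

lemma swapFun_eq_self {b : Set (X × X)} {x : X} (h : x ∉ gdom b) (h' : x ∉ gran b) :
    swapFun b x = x := by
  rw [swapFun, dif_neg (show ¬ ∃ y, (x, y) ∈ b from h), dif_neg (show ¬ ∃ y, (y, x) ∈ b from h')]

/-- A permutation is the swap of a bisection as soon as it agrees on the three parts. -/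
lemma eq_swapPerm {M : Coeff H} (b : Bis M) (g : Equiv.Perm X)
    (h1 : ∀ x y, (x, y) ∈ b.1 → g x = y ∧ g y = x)
    (h2 : ∀ x, x ∉ gdom b.1 → x ∉ gran b.1 → g x = x) : swapPerm b = g := by
  ext x
  change swapFun b.1 x = g x
  by_cases hx : x ∈ gdom b.1
  · obtain ⟨y, hy⟩ := hx
    rw [swapFun_eq_of_mem b.2.1 hy, (h1 _ _ hy).1]
  by_cases hx' : x ∈ gran b.1
  · obtain ⟨y, hy⟩ := hx'
    rw [swapFun_eq_of_mem' b.2.1 b.2.2.1 hy, (h1 _ _ hy).2]
  rw [swapFun_eq_self hx hx', h2 x hx hx']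

variable (H) in
/-- A bisection behind a bit. -/
def preBitSet (c : Bool) (b : Set (X × X)) : Set (X × X) :=
  (fun p => (H.cons (c, p.1), H.cons (c, p.2))) '' b

lemma cons_mem_preSet {c d d' : Bool} {b : Set (X × X)} {x y : X} :
    (H.cons (d, x), H.cons (d', y)) ∈ preBitSet H c b ↔ d = c ∧ d' = c ∧ (x, y) ∈ b := by
  constructor
  · rintro ⟨⟨x', y'⟩, h, e⟩
    have e1 := H.cons.injective (congrArg Prod.fst e)
    have e2 := H.cons.injective (congrArg Prod.snd e)
    simp only [Prod.mk.injEq] at e1 e2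
    obtain ⟨rfl, rfl⟩ := e1
    obtain ⟨rfl, rfl⟩ := e2
    exact ⟨rfl, rfl, h⟩
  · rintro ⟨rfl, rfl, h⟩
    exact ⟨(x, y), h, rfl⟩

/-- Prepending a bit to a bisection. -/
def preBitBis {M : Coeff H} (c : Bool) (b : Bis M) : Bis M := ⟨preBitSet H c b.1, by
  obtain ⟨hpb, hd, l, hl, e⟩ := b.2
  refine ⟨⟨?_, ?_⟩, ?_, l.map (fun t => (c :: t.1, c :: t.2.1, t.2.2)), ?_, ?_⟩
  · intro u v w huv huw
    obtain ⟨d, x, rfl⟩ := H.exists_cons u
    obtain ⟨d₁, y, rfl⟩ := H.exists_cons v
    obtain ⟨d₂, z, rfl⟩ := H.exists_cons w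
    obtain ⟨rfl, rfl, h⟩ := cons_mem_preSet.1 huv
    obtain ⟨-, rfl, h'⟩ := cons_mem_preSet.1 huw
    rw [hpb.1 _ _ _ h h']
  · intro u v w huw hvw
    obtain ⟨d, x, rfl⟩ := H.exists_cons u
    obtain ⟨d₁, y, rfl⟩ := H.exists_cons v
    obtain ⟨d₂, z, rfl⟩ := H.exists_cons w
    obtain ⟨rfl, rfl, h⟩ := cons_mem_preSet.1 huw
    obtain ⟨rfl, -, h'⟩ := cons_mem_preSet.1 hvw
    rw [hpb.2 _ _ _ h h']
  · rw [Set.disjoint_left]
    rintro u ⟨v, huv⟩ ⟨w, hwu⟩
    obtain ⟨d, x, rfl⟩ := H.exists_cons u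
    obtain ⟨d₁, y, rfl⟩ := H.exists_cons v
    obtain ⟨d₂, z, rfl⟩ := H.exists_cons w
    exact Set.disjoint_left.1 hd ⟨y, (cons_mem_preSet.1 huv).2.2⟩ ⟨z, (cons_mem_preSet.1 hwu).2.2⟩
  · intro t ht
    obtain ⟨s, hs, rfl⟩ := List.mem_map.1 ht
    exact hl s hs
  · rw [e]
    ext p
    constructor
    · rintro ⟨q, ⟨t, ht, r, hr, rfl⟩, rfl⟩
      exact ⟨_, List.mem_map.2 ⟨t, ht, rfl⟩, r, hr, rfl⟩
    · rintro ⟨_, ht', r, hr, rfl⟩
      obtain ⟨t, ht, rfl⟩ := List.mem_map.1 ht'
      exact ⟨_, ⟨t, ht, r, hr, rfl⟩, rfl⟩⟩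

lemma behind_swapPerm {M : Coeff H} (c : Bool) (b : Bis M) :
    H.behind c (swapPerm b) = swapPerm (preBitBis c b) := by
  refine (eq_swapPerm _ _ ?_ ?_).symm
  · intro u v huv
    obtain ⟨d, x, rfl⟩ := H.exists_cons u
    obtain ⟨d₁, y, rfl⟩ := H.exists_cons v
    obtain ⟨rfl, rfl, h⟩ := cons_mem_preSet.1 huv
    constructor <;> simp only [H.behind_apply_cons, if_true]
    · exact congrArg (fun z => H.cons (_, z)) (swapFun_eq_of_mem b.2.1 h)
    · exact congrArg (fun z => H.cons (_, z)) (swapFun_eq_of_mem' b.2.1 b.2.2.1 h)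
  · intro x hd hr
    obtain ⟨d, y, rfl⟩ := H.exists_cons x
    rw [H.behind_apply_cons]
    split_ifs with e
    · subst e
      refine congrArg (fun z => H.cons (d, z)) (swapFun_eq_self ?_ ?_)
      · rintro ⟨z, hz⟩
        exact hd ⟨H.cons (d, z), (y, z), hz, rfl⟩
      · rintro ⟨z, hz⟩
        exact hr ⟨H.cons (d, z), (z, y), hz, rfl⟩
    · rfl

lemma behind_mem {M : Coeff H} (c : Bool) {g : Equiv.Perm X} (hg : g ∈ swapGroup M) :
    H.behind c g ∈ swapGroup M := by
  induction hg using Subgroup.closure_induction with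
  | mem x hx =>
    obtain ⟨b, rfl⟩ := hx
    exact Subgroup.subset_closure ⟨preBitBis c b, (behind_swapPerm c b).symm⟩
  | one => rw [map_one]; exact one_mem _
  | mul x y _ _ ihx ihy => rw [map_mul]; exact mul_mem ihx ihy
  | inv x _ ih => rw [map_inv]; exact inv_mem ih

/-- Prepending a bit, on the swap group. -/
noncomputable def iMap (M : Coeff H) (c : Bool) : swapGroup M →* swapGroup M :=
  ((H.behind c).comp (swapGroup M).subtype).codRestrict _ fun x => behind_mem c x.2

@[simp] lemma iMap_val (M : Coeff H) (c : Bool) (g : swapGroup M) :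
    (iMap M c g : Equiv.Perm X) = H.behind c g := rfl

end Vale.Agent.P193
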