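import Vale.Agent.P193.Full.Lift.NoCentral
import Vale.Agent.P193.Full.Injective
import Vale.Agent.P193.Full.Calc.Bool

/-! Consumer forms: swap groups split every perfect central extension. -/

namespace Vale.Agent.P193

universe u

variable {X : Type u} {H : Halving X} (M : Coeff H)

/-- Swap groups are perfect. -/
theorem swapGroup_schurPerfect : Schur.Perfect ↥(swapGroup M) :=
  (swapGroup_perfect (M := M)).commutator_eq_top

/-- Every perfect central extension of a swap group is trivial. -/
theorem swapGroup_centralSplit : Calc.CentralSplit ↥(swapGroup M) := fun _ _ f hf hc hE =>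
  (bijective_of_centralKer (swapGroup_schurPerfect M) hE f hf hc).1

/-- The presentation lift: a perfect group over a swap group with an equivariant generating
family is that swap group. -/
theorem swapGroup_lift {P : Type*} [Group P] (hP : commutator P = ⊤) {T : Type*}
    [MulAction ↥(swapGroup M) T] (f : P →* ↥(swapGroup M)) (hf : Function.Surjective f)
    (F : T → P) (gens : Set P) (hgens : Subgroup.closure gens = ⊤)
    (cov : ∀ g ∈ gens, ∀ t, g * F t * g⁻¹ = F (f g • t))
    (hF : Subgroup.closure (Set.range F) = ⊤) : Function.Bijective f :=
  bijective_of_equivariant (swapGroup_schurPerfect M) hP f hf F gens hgens cov hF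

end Vale.Agent.P193
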