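import Vale.Agent.P193.Full.Lift.Place

/-! Lifts of the rotation attached to a code: the prepended bit is moved behind every word. -/

namespace Vale.Agent.P193

universe u

variable {X : Type u} {H : Halving X}

/-- A code gives the coefficient set of every word. -/
abbrev Code (X : Type u) := List Bool → Set X

/-- The tail of a code. -/
def Code.tail (r : Code X) (c : Bool) : Code X := fun v => r (c :: v)

/-- What sits strictly below the root. -/
def Code.below (r : Code X) : Set X := {y | ∃ u, u ≠ [] ∧ y ∈ r u}

/-- A finitely describable code with rows apart. -/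
structure Code.Nice (r : Code X) (M : Coeff H) : Prop where
  idem : ∀ u, M.Idem (r u)
  below_idem : ∀ w, M.Idem (Code.below fun v => r (w ++ v))
  uniq : ∀ u u' y y', y ∈ r u → y' ∈ r u' → H.pre u y = H.pre u' y' → u = u'

variable {M : Coeff H}

lemma Code.Nice.tail {r : Code X} (hr : r.Nice M) (c : Bool) : (r.tail c).Nice M where
  idem u := hr.idem _
  below_idem w := hr.below_idem (c :: w)
  uniq u u' y y' h h' e :=
    (List.cons.inj (hr.uniq (c :: u) (c :: u') y y' h h' (by simp [Halving.pre, e]))).2

lemma Code.Nice.below_mem {r : Code X} (hr : r.Nice M) : M.Idem r.below := hr.below_idem []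

lemma Code.below_tail_subset (r : Code X) (c : Bool) : (r.tail c).below ⊆ r.below := by
  rintro y ⟨u, -, hy⟩
  exact ⟨c :: u, by simp, hy⟩

lemma Code.Nice.not_below_of_root {r : Code X} (hr : r.Nice M) {y : X} (hy : y ∈ r []) :
    y ∉ r.below := by
  rintro ⟨u, hu, h⟩
  exact hu (hr.uniq u [] y (H.pre u y) h ((M.idem_pre (hr.idem []) u y).2 hy) rfl)

open Schur
open scoped commutatorElement

variable (hM : Perfect ↥(swapGroup M))

/-- The lifted rotation of a code, up to depth `N`. -/
noncomputable def gam : ℕ → Code X → Cover ↥(swapGroup M)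
  | 0, _ => 1
  | N + 1, r => Schur.map (iMap M false) (gam N (r.tail false)) *
      Schur.map (iMap M true) (gam N (r.tail true)) * rotL hM [] r.below

lemma π_rot_cons (e : Set X) (he : M.Idem e) (a b : Bool) (y : X) [Decidable (y ∈ e)] :
    (π ↥(swapGroup M) (rotL hM [] e) : Equiv.Perm X) (H.cons (a, H.cons (b, y))) =
      if y ∈ e then H.cons (b, H.cons (a, y)) else H.cons (a, H.cons (b, y)) := by
  classical
  obtain ⟨c, z, rfl⟩ := H.exists_cons y
  have hz : z ∈ e ↔ H.cons (c, z) ∈ e := (M.idem_cons he c z).symm
  have h : π ↥(swapGroup M) (rotL hM [] e) =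
      ⁅⁅tw M [] e t₁, tw M [] e t₂⁆, ⁅tw M [] e t₁, tw M [] e t₄⁆⁆ := by
    simp only [rotL, dc, map_commutatorElement, π_sec]
  have h' : (π ↥(swapGroup M) (rotL hM [] e) : Equiv.Perm X) =
      H.place e ⁅⁅t₁, t₂⁆, ⁅t₁, t₄⁆⁆ := by
    rw [h]
    simp only [commutatorElement_def, Subgroup.coe_mul, Subgroup.coe_inv, map_mul, map_inv,
      tw_val M [] he]
    rfl
  rw [h']
  change H.place e _ (H.cell (a, b, c) z) = _
  rw [H.place_cell]
  by_cases hy : H.cons (c, z) ∈ e
  · rw [if_pos (hz.2 hy), if_pos hy, t_spec]
    rfl
  · rw [if_neg (mt hz.1 hy), if_neg hy]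
    rfl

lemma π_map_cons (c d : Bool) (g : Cover ↥(swapGroup M)) (y : X) :
    (π ↥(swapGroup M) (Schur.map (iMap M c) g) : Equiv.Perm X) (H.cons (d, y)) =
      H.cons (d, if d = c then (π ↥(swapGroup M) g : Equiv.Perm X) y else y) := by
  rw [π_map, iMap_val, H.behind_apply_cons]

lemma π_pair_cons (g : Bool → Cover ↥(swapGroup M)) (d : Bool) (y : X) :
    (π ↥(swapGroup M) (Schur.map (iMap M false) (g false) * Schur.map (iMap M true) (g true)) :
        Equiv.Perm X) (H.cons (d, y)) =
      H.cons (d, (π ↥(swapGroup M) (g d) : Equiv.Perm X) y) := by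
  rw [map_mul, Subgroup.coe_mul, Equiv.Perm.mul_apply, π_map_cons, π_map_cons]
  cases d <;> simp

/-- Nothing moves outside the words below the root. -/
lemma gam_fix {N : ℕ} {r : Code X} (hr : r.Nice M) {y : X} (hy : y ∉ r.below) :
    (π ↥(swapGroup M) (gam hM N r) : Equiv.Perm X) y = y := by
  classical
  induction N generalizing r y with
  | zero => simp [gam]
  | succ N ih =>
    obtain ⟨a, z, rfl⟩ := H.exists_cons y
    obtain ⟨b, w, rfl⟩ := H.exists_cons z
    have hw : w ∉ r.below := fun h =>
      hy ((M.idem_cons hr.below_mem a _).2 ((M.idem_cons hr.below_mem b w).2 h))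
    rw [gam, map_mul, Subgroup.coe_mul, Equiv.Perm.mul_apply, π_rot_cons hM _ hr.below_mem,
      if_neg hw, π_pair_cons (fun c => gam hM N (r.tail c))]
    refine congrArg (fun t => H.cons (a, t)) (ih (hr.tail a) fun h => hw ?_)
    exact (M.idem_cons hr.below_mem b w).1 (Code.below_tail_subset r a h)

/-- The prepended bit moves behind the word of a row. -/
lemma gam_row {N : ℕ} {r : Code X} (hr : r.Nice M) {u : List Bool} (hu : u.length ≤ N) {y : X}
    (hy : y ∈ r u) (c : Bool) :
    (π ↥(swapGroup M) (gam hM N r) : Equiv.Perm X) (H.cons (c, H.pre u y)) =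
      H.pre u (H.cons (c, y)) := by
  classical
  induction N generalizing r u with
  | zero =>
    obtain rfl : u = [] := List.length_eq_zero_iff.1 (Nat.le_zero.1 hu)
    simp [gam, Halving.pre]
  | succ N ih =>
    cases u with
    | nil =>
      exact gam_fix hM hr fun h =>
        hr.not_below_of_root hy ((M.idem_cons hr.below_mem c y).1 h)
    | cons d u =>
      have hb : H.pre u y ∈ r.below :=
        (M.idem_pre hr.below_mem u y).2 ⟨d :: u, by simp, hy⟩
      rw [gam, map_mul, Subgroup.coe_mul, Equiv.Perm.mul_apply]
      change (π ↥(swapGroup M) _ : Equiv.Perm X)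
        ((π ↥(swapGroup M) (rotL hM [] r.below) : Equiv.Perm X) (H.cons (c, H.cons (d, H.pre u y)))) = _
      rw [π_rot_cons hM _ hr.below_mem, if_pos hb, π_pair_cons (fun c => gam hM N (r.tail c))]
      exact congrArg (fun t => H.cons (d, t)) (ih (hr.tail d) (by simpa using hu) hy)

lemma below_eq_empty {r : Code X} (h : ∀ u, u ≠ [] → r u = ∅) : r.below = ∅ :=
  Set.eq_empty_of_forall_notMem fun y ⟨u, hu, hy⟩ => by
    rw [h u hu] at hy
    exact hy.elim

/-- Depths beyond every row change nothing. -/
lemma gam_stable {N N' : ℕ} {r : Code X} (hN : ∀ u, N < u.length → r u = ∅) (h : N ≤ N') :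
    gam hM N' r = gam hM N r := by
  suffices key : ∀ N (r : Code X), (∀ u, N < u.length → r u = ∅) →
      gam hM (N + 1) r = gam hM N r by
    induction h with
    | refl => rfl
    | @step m hm ih => rw [key m r fun u hu => hN u (lt_of_le_of_lt hm hu), ih]
  intro N
  induction N with
  | zero =>
    intro r h
    simp only [gam]
    rw [below_eq_empty (fun u hu => h u (List.length_pos_iff.2 hu))]
    simp [rot_empty]
  | succ N ih =>
    intro r h
    have e : ∀ c, gam hM (N + 1) (r.tail c) = gam hM N (r.tail c) := fun c =>
      ih _ fun u hu => h (c :: u) (by simpa using hu)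
    conv_lhs => rw [gam, e, e]
    rfl

lemma gam_congr {N : ℕ} {r r' : Code X} (h : ∀ u, u ≠ [] → r u = r' u) :
    gam hM N r = gam hM N r' := by
  cases N with
  | zero => rfl
  | succ N =>
    have e : ∀ c, r.tail c = r'.tail c := fun c => funext fun v => h (c :: v) (by simp)
    have eb : r.below = r'.below := by
      ext y
      constructor <;> rintro ⟨u, hu, hy⟩ <;> exact ⟨u, hu, by simpa [h u hu] using hy⟩
    rw [gam, gam, e, e, eb]

/-- The code after splitting a piece of a row by its next bit. -/
def splitCode (r : Code X) (u : List Bool) (e : Set X) : Code X := fun v =>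
  if v = u then r v \ e else if v = u ++ [false] ∨ v = u ++ [true] then r v ∪ e else r v

lemma splitCode_tail (r : Code X) (d : Bool) (u : List Bool) (e : Set X) :
    (splitCode r (d :: u) e).tail d = splitCode (r.tail d) u e := by
  funext v
  simp [splitCode, Code.tail]

lemma splitCode_tail_ne (r : Code X) {c d : Bool} (hcd : c ≠ d) (u : List Bool) (e : Set X) :
    (splitCode r (d :: u) e).tail c = r.tail c := by
  funext v
  simp [splitCode, Code.tail, hcd]

lemma splitCode_below_root (r : Code X) (e : Set X) :
    (splitCode r [] e).below = r.below ∪ e := by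
  ext y
  constructor
  · rintro ⟨u, hu, hy⟩
    simp only [splitCode, if_neg hu] at hy
    split_ifs at hy with h
    · exact hy.imp (fun h' => ⟨u, hu, h'⟩) id
    · exact Or.inl ⟨u, hu, hy⟩
  · rintro (⟨u, hu, hy⟩ | hy)
    · refine ⟨u, hu, ?_⟩
      simp only [splitCode, if_neg hu]
      split_ifs
      · exact Or.inl hy
      · exact hy
    · exact ⟨[false], by simp, by simp [splitCode, hy]⟩

lemma splitCode_below_cons (r : Code X) (d : Bool) (u : List Bool) {e : Set X}
    (he : e ⊆ r (d :: u)) : (splitCode r (d :: u) e).below = r.below := by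
  ext y
  constructor
  · rintro ⟨v, hv, hy⟩
    simp only [splitCode] at hy
    split_ifs at hy with h1 h2
    · exact ⟨v, hv, hy.1⟩
    · exact hy.elim (fun h => ⟨v, hv, h⟩) fun h => ⟨d :: u, by simp, he h⟩
    · exact ⟨v, hv, hy⟩
  · rintro ⟨v, hv, hy⟩
    by_cases hye : y ∈ e
    · refine ⟨d :: u ++ [false], by simp, ?_⟩
      simp [splitCode, hye]
    · refine ⟨v, hv, ?_⟩
      simp only [splitCode]
      split_ifs
      · exact ⟨hy, hye⟩
      · exact Or.inl hy
      · exact hy

/-- Splitting a piece multiplies by its rotation. -/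
lemma gam_split {N : ℕ} {r : Code X} (hr : r.Nice M) {u : List Bool} {e : Set X}
    (he : M.Idem e) (heu : e ⊆ r u) (hu : u.length < N) :
    gam hM N (splitCode r u e) = rotL hM u e * gam hM N r := by
  induction N generalizing r u with
  | zero => simp at hu
  | succ N ih =>
    cases u with
    | nil =>
      have ht : ∀ c, gam hM N ((splitCode r [] e).tail c) = gam hM N (r.tail c) := fun c =>
        gam_congr hM fun v hv => by cases c <;> simp [splitCode, Code.tail, hv]
      have hd : Disjoint e r.below :=
        Set.disjoint_left.2 fun y hy => hr.not_below_of_root (heu hy)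
      conv_lhs => rw [gam, ht, ht, splitCode_below_root, Set.union_comm,
        rotL_union hM [] he hr.below_mem hd]
      rw [gam, ← mul_assoc, ← mul_assoc]
      congr 1
      refine (commute_rot hM [] he _ fun y hy => ?_).eq
      obtain ⟨d, z, rfl⟩ := H.exists_cons y
      change (π ↥(swapGroup M) _ : Equiv.Perm X) (H.cons (d, z)) = _
      rw [π_pair_cons (fun c => gam hM N (r.tail c))]
      refine congrArg (fun t => H.cons (d, t)) (gam_fix hM (hr.tail d) fun h => ?_)
      exact Set.disjoint_left.1 hd ((M.idem_cons he d z).1 hy) (Code.below_tail_subset r d h)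
    | cons d u =>
      have hu' : u.length < N := by simpa using hu
      rw [gam, gam, splitCode_below_cons r d u heu]
      cases d
      · rw [splitCode_tail, splitCode_tail_ne r (by decide),
          ih (hr.tail false) heu hu', map_mul, map_rot hM false u he]
        simp only [mul_assoc]
      · rw [splitCode_tail, splitCode_tail_ne r (by decide), ih (hr.tail true) heu hu', map_mul,
          map_rot hM true u he, ← mul_assoc (Schur.map (iMap M false) _)]
        have hc : Commute (Schur.map (iMap M false) (gam hM N (r.tail false)))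
            (rotL hM (true :: u) e) := by
          refine commute_rot hM _ he _ fun y _ => ?_
          rw [Halving.pre, π_map_cons]
          simp
        rw [hc.eq]
        simp only [mul_assoc]

end Vale.Agent.P193
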