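import Vale.Agent.P193.Full.Lift.Table

/-! A perfect swap group has no nontrivial perfect central extension. -/

namespace Vale.Agent.P193

universe u

open Schur

variable {X : Type u} {H : Halving X} {M : Coeff H} (hM : Perfect ↥(swapGroup M))

/-- The lift of doubling. -/
noncomputable def dblCover : Cover ↥(swapGroup M) →* Cover ↥(swapGroup M) where
  toFun x := Schur.map (iMap M false) x * Schur.map (iMap M true) x
  map_one' := by simp
  map_mul' x y := by
    have h : Commute (Schur.map (iMap M false) y) (Schur.map (iMap M true) x) :=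
      commute_range (cover_perfect hM) (π_central _) _ _ (fun a b => by
        rw [π_map, π_map]
        exact Subtype.ext (H.behind_commute _ _).eq) y x
    simp only [map_mul]
    exact h.mul_mul_mul_comm _ _

/-- The defect of doubling at a table. -/
noncomputable def defect (x : Cover ↥(swapGroup M)) (T : List (Row X)) (N : ℕ) :
    Cover ↥(swapGroup M) :=
  dblCover hM x * ((gam hM N (qcode T))⁻¹ * x * gam hM N (pcode T))⁻¹

variable {hM}

lemma defect_central {x : Cover ↥(swapGroup M)} {T : List (Row X)}
    (h : IsTable M (π ↥(swapGroup M) x : Equiv.Perm X) T) {N : ℕ} (hN : Short T N) :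
    defect hM x T N ∈ Subgroup.center (Cover ↥(swapGroup M)) := by
  refine π_central _ ?_
  rw [MonoidHom.mem_ker, defect, map_mul, map_inv, mul_inv_eq_one, map_mul, map_mul, map_inv]
  refine Subtype.ext (Equiv.ext fun p => ?_)
  obtain ⟨c, z, rfl⟩ := H.exists_cons p
  obtain ⟨t, ht, y, ⟨y', hyy'⟩, rfl⟩ := h.cover z
  have hP : y ∈ pcode T t.1 := ⟨t, ht, rfl, y', hyy'⟩
  have hQ : y' ∈ qcode T t.2.1 := ⟨_, List.mem_map.2 ⟨t, ht, rfl⟩, rfl, y, hyy'⟩
  simp only [Subgroup.coe_mul, Subgroup.coe_inv, Equiv.Perm.mul_apply]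
  have hg := h.graph t ht (H.cons (c, y)) (H.cons (c, y')) (M.mem_pre (h.mem t ht) [c] hyy')
  rw [gam_row hM h.nice (hN t ht).1 hP c, hg, eq_comm, Equiv.Perm.inv_eq_iff_eq,
    show (dblCover hM) x = Schur.map (iMap M false) x * Schur.map (iMap M true) x from rfl,
    π_pair_cons (fun _ => x) c, h.graph t ht y y' hyy', gam_row hM h.nice' (hN t ht).2 hQ c]

lemma defect_stable (x : Cover ↥(swapGroup M)) {T : List (Row X)} {N N' : ℕ} (hN : Short T N)
    (h : N ≤ N') : defect hM x T N' = defect hM x T N := by
  rw [defect, defect, gam_stable hM (pcode_empty_of_short hN) h,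
    gam_stable hM (r := qcode T) (pcode_empty_of_short (short_flipT hN)) h]

lemma defect_perm (x : Cover ↥(swapGroup M)) {T T' : List (Row X)} (e : T.Perm T') (N : ℕ) :
    defect hM x T N = defect hM x T' N := by
  have hp : ∀ {T T' : List (Row X)}, T.Perm T' → pcode T = pcode T' := by
    intro T T' e
    funext v
    ext y
    simp only [pcode, e.mem_iff]
  rw [defect, defect, hp e, qcode, qcode, hp (T := flipT T) (T' := flipT T') (e.map _)]

/-- The defect does not change when a row is split. -/
lemma defect_split {x : Cover ↥(swapGroup M)} {t : Row X} {T : List (Row X)}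
    (h : IsTable M (π ↥(swapGroup M) x : Equiv.Perm X) (t :: T)) {N : ℕ}
    (h1 : t.1.length < N) (h2 : t.2.1.length < N) :
    defect hM x ((t.1 ++ [false], t.2.1 ++ [false], t.2.2) ::
      (t.1 ++ [true], t.2.1 ++ [true], t.2.2) :: T) N = defect hM x (t :: T) N := by
  have htm := h.mem t List.mem_cons_self
  have hf := h.flip
  rw [defect, defect, h.pcode_split, qcode, qcode]
  simp only [flipT, List.map_cons] at hf ⊢
  rw [IsTable.pcode_split hf,
    gam_split hM h.nice (M.idem_gdom htm) (fun y hy => ⟨t, List.mem_cons_self, rfl, hy⟩) h1,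
    gam_split hM hf.nice (M.idem_gdom (M.inv_mem _ htm))
      (fun y hy => ⟨_, List.mem_cons_self, rfl, hy⟩) h2]
  have hc : x * rotL hM t.1 (gdom t.2.2) * x⁻¹ = rotL hM t.2.1 (gdom (ginv t.2.2)) :=
    conj_rot hM t.1 t.2.1 htm x (h.graph t List.mem_cons_self)
  rw [← hc]
  congr 2
  group

lemma short_perm {T T' : List (Row X)} (e : T.Perm T') {B : ℕ} (h : Short T B) : Short T' B :=
  fun t ht => h t (e.mem_iff.2 ht)

/-- Refining the targets to one length keeps the defect. -/
lemma defect_refine {x : Cover ↥(swapGroup M)} {T : List (Row X)}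
    (h : IsTable M (π ↥(swapGroup M) x : Equiv.Perm X) T) {N B : ℕ} (hN : Short T N)
    (hB : 2 * N ≤ B) :
    ∃ T', IsTable M (π ↥(swapGroup M) x : Equiv.Perm X) T' ∧ UnifR T' N ∧ Short T' B ∧
      defect hM x T' B = defect hM x T B := by
  obtain ⟨T', h', hu, hs, hd⟩ := exists_unifR (M := M) (N := N)
    (g := (π ↥(swapGroup M) x : Equiv.Perm X))
    (fun T' => (∀ t ∈ T', t.1.length ≤ N + t.2.1.length ∧ t.2.1.length ≤ N) ∧
      defect hM x T' B = defect hM x T B)
    (fun {T₁ T₂} e ⟨h1, h2⟩ =>
      ⟨fun t ht => h1 t (e.mem_iff.2 ht), by rw [← defect_perm x e, h2]⟩)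
    (fun {t T₁} ht hlt ⟨h1, h2⟩ => ⟨fun s hs => by
        have := h1 t List.mem_cons_self
        rcases List.mem_cons.1 hs with rfl | hs
        · simp; omega
        rcases List.mem_cons.1 hs with rfl | hs
        · simp; omega
        · exact h1 s (List.mem_cons_of_mem _ hs), by
      have := h1 t List.mem_cons_self
      rw [defect_split ht (by omega) (by omega), h2]⟩)
    h (fun t ht => (hN t ht).2) ⟨fun t ht => ⟨le_add_right (hN t ht).1, (hN t ht).2⟩, rfl⟩
  refine ⟨T', h', hu, fun t ht => ?_, hd⟩
  have := hs t ht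
  omega

/-- The defect does not depend on the table. -/
lemma defect_eq {x : Cover ↥(swapGroup M)} {T T' : List (Row X)}
    (h : IsTable M (π ↥(swapGroup M) x : Equiv.Perm X) T)
    (h' : IsTable M (π ↥(swapGroup M) x : Equiv.Perm X) T') {N N' : ℕ} (hN : Short T N)
    (hN' : Short T' N') : defect hM x T N = defect hM x T' N' := by
  have s1 : Short T (N + N') := fun t ht => by have := hN t ht; omega
  have s2 : Short T' (N + N') := fun t ht => by have := hN' t ht; omega
  obtain ⟨A, hA, uA, -, eA⟩ := defect_refine (hM := hM) h s1 (le_refl (2 * (N + N')))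
  obtain ⟨A', hA', uA', -, eA'⟩ := defect_refine (hM := hM) h' s2 (le_refl (2 * (N + N')))
  rw [← defect_stable x hN (show N ≤ 2 * (N + N') by omega),
    ← defect_stable x hN' (show N' ≤ 2 * (N + N') by omega), ← eA, ← eA', defect, defect,
    hA.pcode_eq hA' uA uA', hA.qcode_eq uA, hA'.qcode_eq uA']

variable (hM) in
/-- The defect of doubling. -/
noncomputable def zeta (x : Cover ↥(swapGroup M)) : Cover ↥(swapGroup M) :=
  defect hM x (Classical.choose (exists_table (π ↥(swapGroup M) x).2))
    (Classical.choose (exists_short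
      (Classical.choose (exists_table (π ↥(swapGroup M) x).2))))

lemma zeta_eq {x : Cover ↥(swapGroup M)} {T : List (Row X)}
    (h : IsTable M (π ↥(swapGroup M) x : Equiv.Perm X) T) {N : ℕ} (hN : Short T N) :
    zeta hM x = defect hM x T N :=
  defect_eq (Classical.choose_spec (exists_table (π ↥(swapGroup M) x).2)) h
    (Classical.choose_spec (exists_short _)) hN

lemma zeta_central (x : Cover ↥(swapGroup M)) :
    zeta hM x ∈ Subgroup.center (Cover ↥(swapGroup M)) := by
  obtain ⟨T, h⟩ := exists_table (π ↥(swapGroup M) x).2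
  obtain ⟨N, hN⟩ := exists_short T
  rw [zeta_eq h hN]
  exact defect_central h hN

lemma zeta_mul (x y : Cover ↥(swapGroup M)) : zeta hM (x * y) = zeta hM x * zeta hM y := by
  obtain ⟨Tx, hx⟩ := exists_table (π ↥(swapGroup M) x).2
  obtain ⟨Ty, hy⟩ := exists_table (π ↥(swapGroup M) y).2
  obtain ⟨Nx, bx⟩ := exists_short Tx
  obtain ⟨Ny, by'⟩ := exists_short Ty
  set N := Nx + Ny
  obtain ⟨A, hA, uA, sA, -⟩ := defect_refine (hM := hM) hy
    (N := N) (fun t ht => by have := by' t ht; omega) (le_refl (2 * N))
  have hinv : IsTable M (π ↥(swapGroup M) x⁻¹ : Equiv.Perm X) (flipT Tx) := by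
    simpa using hx.flip
  obtain ⟨B, hB, uB, sB, -⟩ := defect_refine (hM := hM) hinv
    (N := N) (fun t ht => by have := short_flipT bx t ht; omega) (le_refl (2 * N))
  have hB' : IsTable M (π ↥(swapGroup M) x : Equiv.Perm X) (flipT B) := by
    simpa using hB.flip
  obtain ⟨C, hC, eP, eQ, sC⟩ := hA.comp hB' uA (fun t ht => by
    obtain ⟨s, hs, rfl⟩ := List.mem_map.1 ht
    exact uB s hs)
  have hC' : IsTable M (π ↥(swapGroup M) (x * y) : Equiv.Perm X) C := by simpa using hC
  have sC' := sC _ sA (short_flipT sB)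
  rw [zeta_eq hC' sC', zeta_eq hA sA, zeta_eq hB' (short_flipT sB)]
  have hmid : qcode A = pcode (flipT B) := by
    have := hB.qcode_eq uB
    rw [qcode] at this
    rw [hA.qcode_eq uA, this]
  have c := Subgroup.mem_center_iff.1 (defect_central (hM := hM) hA sA)
  simp only [defect, eP, eQ, map_mul, hmid] at c ⊢
  set P := gam hM (2 * N) (pcode A)
  set R := gam hM (2 * N) (pcode (flipT B))
  set Q := gam hM (2 * N) (qcode (flipT B))
  have c' := c (Q⁻¹ * x * R)⁻¹
  rw [mul_assoc (dblCover hM x) _ (dblCover hM y * _), c']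
  group

lemma dblCover_eq_of_ker {z : Cover ↥(swapGroup M)} (hz : π ↥(swapGroup M) z = 1) :
    dblCover hM z = z := by
  have h1 : ∀ x, zeta hM x = 1 := by
    let f : Cover ↥(swapGroup M) →* Cover ↥(swapGroup M) :=
      MonoidHom.mk' (zeta hM) zeta_mul
    have := hom_eq_of_perfect (cover_perfect hM) f 1 fun x => by
      simpa [f] using inv_mem (zeta_central x)
    exact fun x => DFunLike.congr_fun this x
  have hT : IsTable M (π ↥(swapGroup M) z : Equiv.Perm X)
      [(([] : List Bool), ([] : List Bool), gid (Set.univ : Set X))] := by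
    rw [hz]; exact table_one
  have h := zeta_eq (hM := hM) (N := 0) hT (by simp [Short])
  rw [h1, defect] at h
  simp only [gam, inv_one, one_mul, mul_one] at h
  exact mul_inv_eq_one.1 h.symm

/-- A swap of two prefix cylinders, as an element of the swap group. -/
lemma exists_swap (v w : List Bool) (hvw : ∀ x y, H.pre v x ≠ H.pre w y) :
    ∃ s : swapGroup M, (∀ x, (s : Equiv.Perm X) (H.pre v x) = H.pre w x ∧
      (s : Equiv.Perm X) (H.pre w x) = H.pre v x) ∧
      ∀ x, (∀ y, x ≠ H.pre v y ∧ x ≠ H.pre w y) → (s : Equiv.Perm X) x = x := by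
  let b : Bis M := ⟨{p | ∃ x, p = (H.pre v x, H.pre w x)}, by
    refine ⟨⟨?_, ?_⟩, ?_, [(v, w, gid Set.univ)], ?_, ?_⟩
    · rintro _ _ _ ⟨x, h⟩ ⟨x', h'⟩
      simp only [Prod.mk.injEq] at h h'
      rw [h.2, h'.2, H.pre_injective v (h.1.symm.trans h'.1)]
    · rintro _ _ _ ⟨x, h⟩ ⟨x', h'⟩
      simp only [Prod.mk.injEq] at h h'
      rw [h.1, h'.1, H.pre_injective w (h.2.symm.trans h'.2)]
    · rw [Set.disjoint_left]
      rintro _ ⟨_, x, h⟩ ⟨_, x', h'⟩
      simp only [Prod.mk.injEq] at h h'
      exact hvw x x' (h.1.symm.trans h'.2)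
    · intro t ht
      rw [List.mem_singleton] at ht
      subst ht
      exact M.one_mem
    · ext p
      constructor
      · rintro ⟨x, rfl⟩
        exact ⟨_, List.mem_singleton.2 rfl, (x, x), ⟨rfl, trivial⟩, rfl⟩
      · rintro ⟨t, ht, ⟨x, x'⟩, hm, rfl⟩
        rw [List.mem_singleton] at ht
        subst ht
        obtain ⟨e, -⟩ := hm
        simp only at e
        subst e
        exact ⟨x, rfl⟩⟩
  refine ⟨⟨swapPerm b, Subgroup.subset_closure ⟨b, rfl⟩⟩, fun x => ⟨?_, ?_⟩, fun x hx => ?_⟩
  · exact swapFun_eq_of_mem b.2.1 ⟨x, rfl⟩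
  · exact swapFun_eq_of_mem' b.2.1 b.2.2.1 ⟨x, rfl⟩
  · refine swapFun_eq_self ?_ ?_
    · rintro ⟨_, y, e⟩
      exact (hx y).1 (congrArg Prod.fst e)
    · rintro ⟨_, y, e⟩
      exact (hx y).2 (congrArg Prod.snd e)

lemma map_eq_of_conj (hM : Perfect ↥(swapGroup M)) {φ ψ : ↥(swapGroup M) →* ↥(swapGroup M)}
    {s : ↥(swapGroup M)} (h : ∀ g, s * φ g * s⁻¹ = ψ g) {z : Cover ↥(swapGroup M)}
    (hz : π ↥(swapGroup M) z = 1) : Schur.map ψ z = Schur.map φ z := by
  obtain ⟨s', hs⟩ := π_surjective hM s
  have := lift_unique (cover_perfect hM) (π_central _) (Schur.map ψ)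
    ((MulAut.conj s').toMonoidHom.comp (Schur.map φ))
    (MonoidHom.ext fun x => by simp [hs, h])
  rw [this]
  have hc : Schur.map φ z ∈ Subgroup.center (Cover ↥(swapGroup M)) :=
    π_central _ (by rw [MonoidHom.mem_ker, π_map, hz, map_one])
  simp only [MonoidHom.comp_apply, MulEquiv.coe_toMonoidHom, MulAut.conj_apply]
  rw [Subgroup.mem_center_iff.1 hc s', mul_inv_cancel_right]

/-- The cover of a perfect swap group is the group itself. -/
theorem cover_injective (hM : Perfect ↥(swapGroup M)) :
    Function.Injective (π ↥(swapGroup M)) := by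
  rw [injective_iff_map_eq_one]
  intro z hz
  have hker : ∀ c {w : Cover ↥(swapGroup M)}, π ↥(swapGroup M) w = 1 →
      π ↥(swapGroup M) (Schur.map (iMap M c) w) = 1 := fun c w hw => by
    rw [π_map, hw, map_one]
  -- the two prepends agree on the kernel
  obtain ⟨s, hs, -⟩ := exists_swap (M := M) [false] [true] (fun x y e =>
    Bool.false_ne_true (congrArg Prod.fst (H.cons.injective e)))
  have h01 : ∀ {w : Cover ↥(swapGroup M)}, π ↥(swapGroup M) w = 1 →
      Schur.map (iMap M true) w = Schur.map (iMap M false) w := fun {w} hw => by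
    refine map_eq_of_conj hM (s := s) (fun g => ?_) hw
    rw [mul_inv_eq_iff_eq_mul]
    refine Subtype.ext (Equiv.ext fun x => ?_)
    obtain ⟨c, y, rfl⟩ := H.exists_cons x
    simp only [Subgroup.coe_mul, Equiv.Perm.mul_apply, iMap_val]
    change ∀ x, (s : Equiv.Perm X) (H.cons (false, x)) = H.cons (true, x) ∧
      (s : Equiv.Perm X) (H.cons (true, x)) = H.cons (false, x) at hs
    cases c <;> simp [H.behind_apply_cons, (hs y).1, (hs y).2, (hs _).1]
  -- prepending twice agrees with prepending once
  obtain ⟨t, ht, ht'⟩ := exists_swap (M := M) [true] [false, true] (fun x y e =>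
    Bool.false_ne_true (congrArg Prod.fst (H.cons.injective e)).symm)
  have haa : Schur.map (iMap M false) z =
      Schur.map (iMap M false) (Schur.map (iMap M false) z) := by
    refine (h01 hz).symm.trans (Eq.trans ?_ (congrArg (Schur.map (iMap M false)) (h01 hz)))
    have e1 : Schur.map ((iMap M false).comp (iMap M true)) z =
        Schur.map (iMap M true) z := by
      refine map_eq_of_conj hM (s := t) (fun g => ?_) hz
      rw [mul_inv_eq_iff_eq_mul]
      refine Subtype.ext (Equiv.ext fun x => ?_)
      obtain ⟨c, y, rfl⟩ := H.exists_cons x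
      simp only [Subgroup.coe_mul, Equiv.Perm.mul_apply, iMap_val, MonoidHom.comp_apply]
      change ∀ x, (t : Equiv.Perm X) (H.cons (true, x)) = H.cons (false, H.cons (true, x)) ∧
        (t : Equiv.Perm X) (H.cons (false, H.cons (true, x))) = H.cons (true, x) at ht
      cases c
      · obtain ⟨d, w, rfl⟩ := H.exists_cons y
        cases d
        · have hfix : ∀ u, (t : Equiv.Perm X) (H.cons (false, H.cons (false, u))) =
              H.cons (false, H.cons (false, u)) := fun u => ht' _ fun v =>
            ⟨fun e => Bool.false_ne_true (congrArg Prod.fst (H.cons.injective e)), fun e =>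
              Bool.false_ne_true (congrArg Prod.fst (H.cons.injective
                (congrArg Prod.snd (H.cons.injective e))))⟩
          simp [H.behind_apply_cons, hfix]
        · simp [H.behind_apply_cons, (ht w).2]
      · simp [H.behind_apply_cons, (ht y).1, (ht _).1]
    have e2 : Schur.map ((iMap M false).comp (iMap M true)) z =
        Schur.map (iMap M false) (Schur.map (iMap M true) z) :=
      DFunLike.congr_fun (lift_unique (cover_perfect hM) (π_central _) _
        ((Schur.map (iMap M false)).comp (Schur.map (iMap M true)))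
        (MonoidHom.ext fun x => by simp)) z
    exact e1.symm.trans e2
  have hd := dblCover_eq_of_ker (hM := hM) hz
  change Schur.map (iMap M false) z * Schur.map (iMap M true) z = z at hd
  rw [h01 hz] at hd
  set a := Schur.map (iMap M false) z with ha
  have ha1 : a = a * a := by
    calc a = Schur.map (iMap M false) (a * a) := by rw [hd]
      _ = a * a := by rw [map_mul, ← haa]
  have : a = 1 := mul_eq_left.1 ha1.symm
  rw [← hd, this, one_mul]

/-- A perfect swap group has no nontrivial perfect central extension. -/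
theorem bijective_of_centralKer (hM : Perfect ↥(swapGroup M)) {E : Type*} [Group E]
    (hE : Perfect E) (f : E →* ↥(swapGroup M)) (hf : Function.Surjective f) (hc : CentralKer f) :
    Function.Bijective f :=
  bijective_of_cover_injective (cover_injective hM) hE f hf hc

/-- The lift theorem: an equivariant family of generators makes a perfect cover injective. -/
theorem bijective_of_equivariant (hM : Perfect ↥(swapGroup M)) {P : Type*} [Group P]
    (hP : Perfect P) {T : Type*} [MulAction ↥(swapGroup M) T] (f : P →* ↥(swapGroup M))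
    (hf : Function.Surjective f) (F : T → P) (gens : Set P) (hgens : Subgroup.closure gens = ⊤)
    (cov : ∀ g ∈ gens, ∀ t, g * F t * g⁻¹ = F (f g • t))
    (hF : Subgroup.closure (Set.range F) = ⊤) : Function.Bijective f :=
  bijective_of_centralKer hM hP f hf (centralKer_of_equivariant f F gens hgens cov hF)

end Vale.Agent.P193
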