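import Mathlib.GroupTheory.Commutator.Basic
import Mathlib.GroupTheory.Abelianization.Defs
import Mathlib.GroupTheory.FreeGroup.Basic
import Mathlib.GroupTheory.QuotientGroup.Basic
import Mathlib.GroupTheory.Subgroup.Centralizer
import Mathlib.Tactic.Group

/-! The universal perfect central cover of a perfect group, with functoriality, and the lift
criterion for central kernels. -/

namespace Vale.Agent.P193.Schur

universe u v

open scoped commutatorElement

/-- Every element is a product of commutators. -/
def Perfect (G : Type u) [Group G] : Prop := commutator G = ⊤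

/-- A homomorphism with central kernel. -/
def CentralKer {G : Type u} {H : Type v} [Group G] [Group H] (f : G →* H) : Prop :=
  f.ker ≤ Subgroup.center G

variable {G : Type u} {E : Type v} [Group G] [Group E]

lemma commElem_mul_central {x y z w : G} (hz : z ∈ Subgroup.center G) (hw : w ∈ Subgroup.center G) :
    ⁅x * z, y * w⁆ = ⁅x, y⁆ := by
  have hz' : ∀ t, t * z = z * t := Subgroup.mem_center_iff.1 hz
  have hw' : ∀ t, t * w = w * t := Subgroup.mem_center_iff.1 hw
  simp only [commutatorElement_def, mul_inv_rev]
  calc x * z * (y * w) * (z⁻¹ * x⁻¹) * (w⁻¹ * y⁻¹)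
      = x * (z * y) * (w * z⁻¹ * x⁻¹) * (w⁻¹ * y⁻¹) := by simp only [mul_assoc]
    _ = x * (y * z) * (z⁻¹ * x⁻¹ * w) * (w⁻¹ * y⁻¹) := by rw [← hz' y, mul_assoc w, ← hw']
    _ = x * y * x⁻¹ * y⁻¹ := by group

/-- Two homomorphisms from a perfect group that agree modulo the centre are equal. -/
lemma hom_eq_of_perfect (hG : Perfect G) (f g : G →* E)
    (h : ∀ x, (f x)⁻¹ * g x ∈ Subgroup.center E) : f = g := by
  have hx : ∀ x, x ∈ MonoidHom.eqLocus f g := by
    intro x
    have : x ∈ commutator G := by rw [hG]; exact Subgroup.mem_top x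
    refine (Subgroup.commutator_le.2 fun a _ b _ => ?_) this
    show f ⁅a, b⁆ = g ⁅a, b⁆
    have ha : g a = f a * ((f a)⁻¹ * g a) := by group
    have hb : g b = f b * ((f b)⁻¹ * g b) := by group
    rw [map_commutatorElement, map_commutatorElement, ha, hb,
      commElem_mul_central (h a) (h b)]
  exact MonoidHom.ext hx

/-- Two lifts along a map with central kernel of one homomorphism agree on a perfect group. -/
lemma lift_unique {H : Type*} [Group H] (hG : Perfect G) {π : E →* H} (hπ : CentralKer π)
    (f g : G →* E) (h : π.comp f = π.comp g) : f = g := by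
  refine hom_eq_of_perfect hG f g fun x => hπ ?_
  have := DFunLike.congr_fun h x
  simp only [MonoidHom.comp_apply] at this
  simp [MonoidHom.mem_ker, this]

/-- If the images of `x` and of `a`, `b` commute, then `x` commutes with `⁅a, b⁆`. -/
lemma commute_commElem {H : Type*} [Group H] {π : E →* H} (hπ : CentralKer π) {x a b : E}
    (ha : Commute (π x) (π a)) (hb : Commute (π x) (π b)) : Commute x ⁅a, b⁆ := by
  have key : ∀ y, Commute (π x) (π y) →
      ∃ z ∈ Subgroup.center E, x * y * x⁻¹ = y * z := by
    intro y hy
    refine ⟨y⁻¹ * (x * y * x⁻¹), hπ ?_, by group⟩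
    simp [MonoidHom.mem_ker, hy.eq]
  obtain ⟨z, hz, ez⟩ := key a ha
  obtain ⟨w, hw, ew⟩ := key b hb
  have : x * ⁅a, b⁆ * x⁻¹ = ⁅a, b⁆ := by
    have e : x * ⁅a, b⁆ * x⁻¹ = ⁅x * a * x⁻¹, x * b * x⁻¹⁆ := by
      simp only [commutatorElement_def]; group
    rw [e, ez, ew, commElem_mul_central hz hw]
  exact mul_inv_eq_iff_eq_mul.1 this

/-- Lifts of two commuting homomorphisms from perfect groups commute. -/
lemma commute_range {G' : Type*} [Group G'] {H : Type*} [Group H] (hG : Perfect G')
    {π : E →* H} (hπ : CentralKer π) (f : G →* E) (g : G' →* E)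
    (h : ∀ x y, Commute (π (f x)) (π (g y))) (x : G) (y : G') : Commute (f x) (g y) := by
  have hy : y ∈ Subgroup.comap g (Subgroup.centralizer {f x}) := by
    have : y ∈ commutator G' := by rw [hG]; exact Subgroup.mem_top y
    refine (Subgroup.commutator_le.2 fun a _ b _ => ?_) this
    rw [Subgroup.mem_comap, Subgroup.mem_centralizer_singleton_iff, map_commutatorElement]
    exact (commute_commElem hπ (h x a) (h x b)).eq.symm
  rw [Subgroup.mem_comap, Subgroup.mem_centralizer_singleton_iff] at hy
  exact hy.symm

/-! ## The cover -/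

variable (U : Type u) [Group U]

/-- The evaluation of the free group on `U`. -/
def ev : FreeGroup U →* U := FreeGroup.lift id

/-- The free central extension of `U`. -/
abbrev Big : Type u := FreeGroup U ⧸ ⁅(ev U).ker, (⊤ : Subgroup (FreeGroup U))⁆

/-- The map of the free central extension to `U`. -/
def bigπ : Big U →* U :=
  QuotientGroup.lift _ (ev U) (Subgroup.commutator_le_left _ _)

lemma bigπ_central : CentralKer (bigπ U) := by
  intro x hx
  obtain ⟨x, rfl⟩ := QuotientGroup.mk_surjective x
  rw [Subgroup.mem_center_iff]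
  intro y
  obtain ⟨y, rfl⟩ := QuotientGroup.mk_surjective y
  have hx' : x ∈ (ev U).ker := hx
  rw [← QuotientGroup.mk_mul, ← QuotientGroup.mk_mul, QuotientGroup.eq]
  have : (y * x)⁻¹ * (x * y) = ⁅x⁻¹, y⁻¹⁆ := by simp only [commutatorElement_def]; group
  rw [this]
  exact Subgroup.commutator_mem_commutator (inv_mem hx') (Subgroup.mem_top _)

lemma bigπ_surjective : Function.Surjective (bigπ U) := fun g =>
  ⟨QuotientGroup.mk (FreeGroup.of g), by exact FreeGroup.lift_apply_of⟩

/-- The universal cover: the commutator subgroup of the free central extension. -/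
abbrev Cover : Type u := ↥(commutator (Big U))

/-- The covering map. -/
def π : Cover U →* U := (bigπ U).comp (commutator (Big U)).subtype

lemma π_central : CentralKer (π U) := by
  intro x hx
  rw [Subgroup.mem_center_iff]
  intro y
  exact Subtype.ext (Subgroup.mem_center_iff.1 (bigπ_central U hx) y)

variable {U}

lemma π_surjective (hU : Perfect U) : Function.Surjective (π U) := by
  intro g
  have h : (commutator (Big U)).map (bigπ U) = ⊤ := by
    rw [commutator_def, Subgroup.map_commutator, Subgroup.map_top_of_surjective _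
      (bigπ_surjective U), ← commutator_def]
    exact hU
  obtain ⟨x, hx, rfl⟩ : g ∈ (commutator (Big U)).map (bigπ U) := h ▸ Subgroup.mem_top g
  exact ⟨⟨x, hx⟩, rfl⟩

/-- Every commutator of the free central extension is one of elements of the cover. -/
lemma exists_cover_commElem (hU : Perfect U) (a b : Big U) :
    ∃ a' b' : Cover U, ((⁅a', b'⁆ : Cover U) : Big U) = ⁅a, b⁆ := by
  obtain ⟨a', ha⟩ := π_surjective hU (bigπ U a)
  obtain ⟨b', hb⟩ := π_surjective hU (bigπ U b)
  refine ⟨a', b', ?_⟩
  have key : ∀ (c : Cover U) (d : Big U), π U c = bigπ U d →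
      ∃ z ∈ Subgroup.center (Big U), d = (c : Big U) * z := fun c d h =>
    ⟨(c : Big U)⁻¹ * d, bigπ_central U (by
      rw [MonoidHom.mem_ker, map_mul, map_inv]
      change (π U c)⁻¹ * _ = 1
      rw [h, inv_mul_cancel]), by group⟩
  obtain ⟨z, hz, rfl⟩ := key a' a ha
  obtain ⟨w, hw, rfl⟩ := key b' b hb
  rw [commElem_mul_central hz hw]
  simp [commutatorElement_def]

lemma cover_perfect (hU : Perfect U) : Perfect (Cover U) := by
  refine eq_top_iff.2 fun x _ => ?_
  have h : commutator (Big U) ≤ (commutator (Cover U)).map (commutator (Big U)).subtype := by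
    refine Subgroup.commutator_le.2 ?_
    intro a _ b _
    obtain ⟨a', b', e⟩ := exists_cover_commElem hU a b
    exact ⟨⁅a', b'⁆, Subgroup.commutator_mem_commutator (Subgroup.mem_top _)
      (Subgroup.mem_top _), e⟩
  obtain ⟨y, hy, e⟩ := h x.2
  have : y = x := Subtype.ext e
  exact this ▸ hy

/-- The endomorphism of the free central extension over an endomorphism. -/
def bigMap (φ : U →* U) : Big U →* Big U :=
  QuotientGroup.map _ _ (FreeGroup.map φ) (by
    rw [← Subgroup.map_le_iff_le_comap, Subgroup.map_commutator]
    refine Subgroup.commutator_mono ?_ le_top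
    rintro _ ⟨x, hx, rfl⟩
    have e : (ev U).comp (FreeGroup.map φ) = φ.comp (ev U) :=
      FreeGroup.ext_hom _ _ fun a => by simp [ev]
    have := DFunLike.congr_fun e x
    simp only [MonoidHom.comp_apply] at this
    have hx' : ev U x = 1 := hx
    rw [MonoidHom.mem_ker, this, hx', map_one])

lemma bigπ_bigMap (φ : U →* U) (x : Big U) : bigπ U (bigMap φ x) = φ (bigπ U x) := by
  obtain ⟨x, rfl⟩ := QuotientGroup.mk_surjective x
  have e : (ev U).comp (FreeGroup.map φ) = φ.comp (ev U) :=
    FreeGroup.ext_hom _ _ fun a => by simp [ev]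
  exact DFunLike.congr_fun e x

/-- The lift of an endomorphism to the cover. -/
def map (φ : U →* U) : Cover U →* Cover U :=
  ((bigMap φ).comp (commutator (Big U)).subtype).codRestrict (commutator (Big U)) fun x => by
    have h : (commutator (Big U)).map (bigMap φ) ≤ commutator (Big U) := by
      rw [commutator_def, Subgroup.map_commutator]
      exact Subgroup.commutator_mono le_top le_top
    exact h ⟨x, x.2, rfl⟩

@[simp] lemma π_map (φ : U →* U) (x : Cover U) : π U (map φ x) = φ (π U x) :=
  bigπ_bigMap φ x

/-- If the covering map is injective, every perfect central extension is trivial. -/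
theorem bijective_of_cover_injective (hinj : Function.Injective (π U))
    (hE : Perfect E) (f : E →* U) (hf : Function.Surjective f) (hc : CentralKer f) :
    Function.Bijective f := by
  refine ⟨?_, hf⟩
  choose s hs using hf
  have hcomp : f.comp (FreeGroup.lift s) = ev U := FreeGroup.ext_hom _ _ fun a => by simp [ev, hs]
  let L : Big U →* E := QuotientGroup.lift _ (FreeGroup.lift s) (by
    rw [Subgroup.commutator_le]
    intro x hx y _
    have hx' : FreeGroup.lift s x ∈ Subgroup.center E := hc (by
      rw [MonoidHom.mem_ker]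
      exact (DFunLike.congr_fun hcomp x).trans hx)
    rw [MonoidHom.mem_ker, map_commutatorElement, commutatorElement_eq_one_iff_mul_comm]
    exact (Subgroup.mem_center_iff.1 hx' _).symm)
  have hL : ∀ x, f (L x) = bigπ U x := by
    intro x
    obtain ⟨x, rfl⟩ := QuotientGroup.mk_surjective x
    exact DFunLike.congr_fun hcomp x
  have hrange : ∀ e : E, ∃ c : Cover U, L c = e := by
    have h : commutator E ≤ ((commutator (Big U)).map L) := by
      rw [commutator_def E, Subgroup.commutator_le]
      intro a _ b _
      have key : ∀ e : E, ∃ z ∈ Subgroup.center E,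
          e = L (QuotientGroup.mk (FreeGroup.of (f e))) * z := fun e =>
        ⟨(L (QuotientGroup.mk (FreeGroup.of (f e))))⁻¹ * e, hc (by
          rw [MonoidHom.mem_ker, map_mul, map_inv, hL]
          exact inv_mul_eq_one.2 FreeGroup.lift_apply_of), by group⟩
      obtain ⟨z, hz, ea⟩ := key a
      obtain ⟨w, hw, eb⟩ := key b
      refine ⟨⁅(QuotientGroup.mk (FreeGroup.of (f a)) : Big U),
          QuotientGroup.mk (FreeGroup.of (f b))⁆,
        Subgroup.commutator_mem_commutator (Subgroup.mem_top _) (Subgroup.mem_top _), ?_⟩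
      rw [map_commutatorElement]
      conv_rhs => rw [ea, eb]
      exact (commElem_mul_central hz hw).symm
    intro e
    obtain ⟨c, hc', rfl⟩ := h (hE.symm ▸ Subgroup.mem_top e)
    exact ⟨⟨c, hc'⟩, rfl⟩
  intro x y hxy
  obtain ⟨a, rfl⟩ := hrange x
  obtain ⟨b, rfl⟩ := hrange y
  rw [hL, hL] at hxy
  rw [hinj (show π U a = π U b from hxy)]

/-- The lift criterion: an equivariant section on any set with an action, whose range
generates, makes the kernel central. -/
theorem centralKer_of_equivariant {P : Type v} [Group P] {T : Type*} [MulAction U T]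
    (f : P →* U) (F : T → P) (gens : Set P) (hgens : Subgroup.closure gens = ⊤)
    (cov : ∀ g ∈ gens, ∀ t, g * F t * g⁻¹ = F (f g • t))
    (hF : Subgroup.closure (Set.range F) = ⊤) : CentralKer f := by
  have hall : ∀ g : P, ∀ t, g * F t * g⁻¹ = F (f g • t) := by
    intro g
    have hg : g ∈ Subgroup.closure gens := hgens ▸ Subgroup.mem_top g
    induction hg using Subgroup.closure_induction with
    | mem x hx => exact cov x hx
    | one => intro t; simp
    | mul x y _ _ ihx ihy =>
      intro t
      rw [map_mul, mul_smul, ← ihx, ← ihy]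
      group
    | inv x _ ih =>
      intro t
      have h := ih ((f x)⁻¹ • t)
      rw [smul_inv_smul] at h
      rw [map_inv, ← h]
      group
  intro k hk
  rw [MonoidHom.mem_ker] at hk
  have hle : Subgroup.closure (Set.range F) ≤ Subgroup.centralizer {k} := by
    rw [Subgroup.closure_le]
    rintro _ ⟨t, rfl⟩
    rw [SetLike.mem_coe, Subgroup.mem_centralizer_singleton_iff]
    have h := hall k t
    rw [hk, one_smul] at h
    exact (mul_inv_eq_iff_eq_mul.1 h).symm
  rw [Subgroup.mem_center_iff]
  intro y
  exact Subgroup.mem_centralizer_singleton_iff.1 (hle (hF ▸ Subgroup.mem_top y))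

end Vale.Agent.P193.Schur
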