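import Mathlib.GroupTheory.Perm.Sign
import Vale.Agent.P193.Full.Lift.Prepend
import Vale.Agent.P193.Full.Lift.Schur

/-! Placed cell permutations and the canonical lifts of the local rotation. -/

namespace Vale.Agent.P193

universe u

variable {X : Type u} (H : Halving X)

open scoped commutatorElement

/-- The eight cells of depth three. -/
abbrev Cell := Bool × Bool × Bool

namespace Halving

/-- A point inside a cell. -/
def cell (q : Cell) (y : X) : X := H.cons (q.1, H.cons (q.2.1, H.cons (q.2.2, y)))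

lemma cell_eq_pre (q : Cell) (y : X) : H.cell q y = H.pre [q.1, q.2.1, q.2.2] y := rfl

/-- The equivalence behind `cell`. -/
def cellEquiv : Cell × X ≃ X where
  toFun p := H.cell p.1 p.2
  invFun x := ((H.hd x, H.hd (H.tl x), H.hd (H.tl (H.tl x))), H.tl (H.tl (H.tl x)))
  left_inv p := by simp [cell]
  right_inv x := by simp [cell, cons_hd_tl]

lemma exists_cell (x : X) : ∃ q y, x = H.cell q y :=
  ⟨(H.cellEquiv.symm x).1, (H.cellEquiv.symm x).2, (H.cellEquiv.apply_symm_apply x).symm⟩

open Classical in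
/-- Permute the cells over the points of a set. -/
noncomputable def place (e : Set X) : Equiv.Perm Cell →* Equiv.Perm X where
  toFun p := H.cellEquiv.permCongr
    ⟨fun t => (if t.2 ∈ e then p t.1 else t.1, t.2), fun t => (if t.2 ∈ e then p.symm t.1 else t.1, t.2),
      fun t => by by_cases h : t.2 ∈ e <;> simp [h],
      fun t => by by_cases h : t.2 ∈ e <;> simp [h]⟩
  map_one' := by
    ext x
    obtain ⟨q, y, rfl⟩ := H.exists_cell x
    by_cases h : y ∈ e <;> simp [cellEquiv, cell, h]
  map_mul' p p' := by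
    ext x
    obtain ⟨q, y, rfl⟩ := H.exists_cell x
    by_cases h : y ∈ e <;> simp [cellEquiv, cell, h, Equiv.Perm.mul_apply]

open Classical in
lemma place_cell (e : Set X) (p : Equiv.Perm Cell) (q : Cell) (y : X) :
    H.place e p (H.cell q y) = H.cell (if y ∈ e then p q else q) y := by
  simp [place, cellEquiv, cell]

/-- Act behind a word, trivially elsewhere. -/
def behindW : List Bool → Equiv.Perm X →* Equiv.Perm X
  | [] => MonoidHom.id _
  | c :: v => (H.behind c).comp (behindW v)

lemma behindW_pre (v : List Bool) (g : Equiv.Perm X) (y : X) :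
    H.behindW v g (H.pre v y) = H.pre v (g y) := by
  induction v with
  | nil => rfl
  | cons c v ih => simp [behindW, pre, behind_apply_cons, ih]

lemma behindW_of_not (v : List Bool) (g : Equiv.Perm X) (x : X) (h : ∀ y, x ≠ H.pre v y) :
    H.behindW v g x = x := by
  induction v generalizing x with
  | nil => exact absurd rfl (h x)
  | cons c v ih =>
    obtain ⟨d, z, rfl⟩ := H.exists_cons x
    simp only [behindW, MonoidHom.comp_apply, behind_apply_cons]
    split_ifs with e
    · subst e
      rw [ih z fun y hy => h y (by simp [pre, hy])]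
    · rfl

end Halving

variable {H} (M : Coeff H)

/-- The swap of two cells over an idempotent. -/
lemma place_swap_mem {e : Set X} (he : M.Idem e) {q q' : Cell} (hq : q ≠ q') :
    H.place e (Equiv.swap q q') ∈ swapGroup M := by
  have key : ∀ {p p' : Cell} {y y' : X}, H.cell p y = H.cell p' y' → p = p' ∧ y = y' :=
    fun {p p' y y'} h => Prod.ext_iff.1 (H.cellEquiv.injective (a₁ := (p, y)) (a₂ := (p', y')) h)
  let b : Bis M := ⟨{z | ∃ y ∈ e, z = (H.cell q y, H.cell q' y)}, by
    refine ⟨⟨?_, ?_⟩, ?_, [([q.1, q.2.1, q.2.2], [q'.1, q'.2.1, q'.2.2], gid e)], ?_, ?_⟩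
    · rintro _ _ _ ⟨y, hy, h⟩ ⟨y', hy', h'⟩
      simp only [Prod.mk.injEq] at h h'
      obtain ⟨-, rfl⟩ := key (h.1.symm.trans h'.1)
      rw [h.2, h'.2]
    · rintro _ _ _ ⟨y, hy, h⟩ ⟨y', hy', h'⟩
      simp only [Prod.mk.injEq] at h h'
      obtain ⟨-, rfl⟩ := key (h.2.symm.trans h'.2)
      rw [h.1, h'.1]
    · rw [Set.disjoint_left]
      rintro _ ⟨_, y, hy, h⟩ ⟨_, y', hy', h'⟩
      simp only [Prod.mk.injEq] at h h'
      exact hq (key (h.1.symm.trans h'.2)).1
    · intro t ht
      rw [List.mem_singleton] at ht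
      subst ht
      exact he
    · ext z
      constructor
      · rintro ⟨y, hy, rfl⟩
        exact ⟨_, List.mem_singleton.2 rfl, (y, y), ⟨rfl, hy⟩, rfl⟩
      · rintro ⟨t, ht, ⟨y, y'⟩, hm, rfl⟩
        rw [List.mem_singleton] at ht
        subst ht
        obtain ⟨h, hy⟩ := hm
        simp only at h
        subst h
        exact ⟨y, hy, rfl⟩⟩
  have : swapPerm b = H.place e (Equiv.swap q q') := by
    classical
    refine eq_swapPerm _ _ ?_ ?_
    · rintro _ _ ⟨y, hy, h⟩
      simp only [Prod.mk.injEq] at h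
      rw [h.1, h.2, H.place_cell, H.place_cell, if_pos hy, if_pos hy]
      simp
    · intro x hd hr
      obtain ⟨p, y, rfl⟩ := H.exists_cell x
      rw [H.place_cell]
      split_ifs with hy
      · rw [Equiv.swap_apply_of_ne_of_ne]
        · rintro rfl
          exact hd ⟨_, y, hy, rfl⟩
        · rintro rfl
          exact hr ⟨_, y, hy, rfl⟩
      · rfl
  exact this ▸ Subgroup.subset_closure ⟨b, rfl⟩

lemma place_mem {e : Set X} (he : M.Idem e) (p : Equiv.Perm Cell) :
    H.place e p ∈ swapGroup M := by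
  induction p using Equiv.Perm.swap_induction_on with
  | one => rw [map_one]; exact one_mem _
  | swap_mul f a b hab ih => rw [map_mul]; exact mul_mem (place_swap_mem M he hab) ih

lemma behindW_mem (v : List Bool) {g : Equiv.Perm X} (hg : g ∈ swapGroup M) :
    H.behindW v g ∈ swapGroup M := by
  induction v with
  | nil => exact hg
  | cons c v ih => exact behind_mem c ih

open Classical in
/-- A cell permutation behind a word over an idempotent, in the swap group. -/
noncomputable def tw (v : List Bool) (e : Set X) (p : Equiv.Perm Cell) : swapGroup M :=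
  if h : H.behindW v (H.place e p) ∈ swapGroup M then ⟨_, h⟩ else 1

lemma tw_val (v : List Bool) {e : Set X} (he : M.Idem e) (p : Equiv.Perm Cell) :
    (tw M v e p : Equiv.Perm X) = H.behindW v (H.place e p) := by
  rw [tw, dif_pos (behindW_mem M v (place_mem M he p))]

lemma iMap_tw (c : Bool) (v : List Bool) {e : Set X} (he : M.Idem e) (p : Equiv.Perm Cell) :
    iMap M c (tw M v e p) = tw M (c :: v) e p := by
  refine Subtype.ext ?_
  rw [iMap_val, tw_val M v he, tw_val M _ he]
  rfl

lemma tw_apply_pre (v : List Bool) {e : Set X} (he : M.Idem e) (p : Equiv.Perm Cell)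
    (q : Cell) (y : X) [Decidable (y ∈ e)] :
    (tw M v e p : Equiv.Perm X) (H.pre v (H.cell q y)) =
      H.pre v (H.cell (if y ∈ e then p q else q) y) := by
  rw [tw_val M v he, H.behindW_pre, H.place_cell]
  congr

/-- Placed permutations fix what is outside their word or idempotent. -/
lemma tw_apply_of_not (v : List Bool) {e : Set X} (he : M.Idem e) (p : Equiv.Perm Cell) {x : X}
    (h : ∀ y ∈ e, x ≠ H.pre v y) : (tw M v e p : Equiv.Perm X) x = x := by
  classical
  by_cases hx : ∃ y, x = H.pre v y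
  · obtain ⟨y, rfl⟩ := hx
    obtain ⟨q, z, rfl⟩ := H.exists_cell y
    rw [tw_apply_pre M v he, if_neg]
    intro hz
    exact h _ ((M.idem_pre he [q.1, q.2.1, q.2.2] z).2 hz) rfl
  · push Not at hx
    rw [tw_val M v he, H.behindW_of_not v _ x hx]

lemma tw_empty (v : List Bool) (p : Equiv.Perm Cell) : tw M v (∅ : Set X) p = 1 := by
  refine Subtype.ext (Equiv.ext fun x => ?_)
  exact tw_apply_of_not M v M.idem_empty p fun y hy => hy.elim

lemma tw_union (v : List Bool) {e f : Set X} (he : M.Idem e) (hf : M.Idem f)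
    (hd : Disjoint e f) (p : Equiv.Perm Cell) : tw M v (e ∪ f) p = tw M v e p * tw M v f p := by
  classical
  refine Subtype.ext (Equiv.ext fun x => ?_)
  rw [Subgroup.coe_mul, Equiv.Perm.mul_apply]
  by_cases hx : ∃ y, x = H.pre v y
  · obtain ⟨y, rfl⟩ := hx
    obtain ⟨q, z, rfl⟩ := H.exists_cell y
    rw [tw_apply_pre M v (M.idem_union he hf), tw_apply_pre M v hf, tw_apply_pre M v he]
    by_cases h1 : z ∈ e
    · simp [h1, Set.disjoint_left.1 hd h1]
    · by_cases h2 : z ∈ f <;> simp [h1, h2]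
  · push Not at hx
    rw [tw_apply_of_not M v (M.idem_union he hf) p fun y _ => hx y,
      tw_apply_of_not M v hf p fun y _ => hx y, tw_apply_of_not M v he p fun y _ => hx y]

/-- A permutation fixing pointwise the support commutes with a placed one. -/
lemma tw_commute (v : List Bool) {e : Set X} (he : M.Idem e) (p : Equiv.Perm Cell)
    (g : swapGroup M) (hg : ∀ y ∈ e, (g : Equiv.Perm X) (H.pre v y) = H.pre v y) :
    Commute g (tw M v e p) := by
  classical
  refine Subtype.ext (Equiv.ext fun x => ?_)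
  simp only [Subgroup.coe_mul, Equiv.Perm.mul_apply]
  by_cases hx : ∃ y ∈ e, x = H.pre v y
  · obtain ⟨y, hy, rfl⟩ := hx
    rw [hg y hy]
    obtain ⟨q, z, rfl⟩ := H.exists_cell y
    rw [tw_apply_pre M v he]
    refine hg _ ?_
    exact (M.idem_pre he [_, _, _] z).2 ((M.idem_pre he [q.1, q.2.1, q.2.2] z).1 hy)
  · push Not at hx
    rw [tw_apply_of_not M v he p fun y hy => hx y hy]
    refine (tw_apply_of_not M v he p fun y hy h => hx y hy ?_).symm
    exact (g : Equiv.Perm X).injective (h.trans (hg y hy).symm)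

/-- Transport of placed permutations along a row. -/
lemma tw_conj (v w : List Bool) {m : Set (X × X)} (hm : M.mem m) (p : Equiv.Perm Cell)
    (g : swapGroup M) (hg : ∀ x y, (x, y) ∈ m → (g : Equiv.Perm X) (H.pre v x) = H.pre w y) :
    g * tw M v (gdom m) p * g⁻¹ = tw M w (gran m) p := by
  classical
  rw [mul_inv_eq_iff_eq_mul]
  refine Subtype.ext (Equiv.ext fun x => ?_)
  simp only [Subgroup.coe_mul, Equiv.Perm.mul_apply]
  have hd := M.idem_gdom hm
  have hr := M.idem_gran hm
  by_cases hx : ∃ y ∈ gdom m, x = H.pre v y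
  · obtain ⟨y, hy, rfl⟩ := hx
    obtain ⟨q, z, rfl⟩ := H.exists_cell y
    have hz : z ∈ gdom m := (M.idem_pre hd [q.1, q.2.1, q.2.2] z).1 hy
    obtain ⟨z', hz'⟩ := hz
    have hz1 : z ∈ gdom m := ⟨z', hz'⟩
    have hz2 : z' ∈ gran m := ⟨z, hz'⟩
    rw [tw_apply_pre M v hd, if_pos hz1,
      hg (H.cell (p q) z) (H.cell (p q) z') (M.mem_pre hm [(p q).1, (p q).2.1, (p q).2.2] hz'),
      hg (H.cell q z) (H.cell q z') (M.mem_pre hm [q.1, q.2.1, q.2.2] hz')]
    rw [tw_apply_pre M w hr, if_pos hz2]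
  · push Not at hx
    rw [tw_apply_of_not M v hd p fun y hy => hx y hy]
    refine (tw_apply_of_not M w hr p ?_).symm
    rintro y ⟨x', hxy⟩ h
    exact hx x' ⟨y, hxy⟩ ((g : Equiv.Perm X).injective (h.trans (hg x' y hxy).symm))

/-! ### The canonical lifts -/

open Schur

variable {M} (hM : Perfect ↥(swapGroup M))

/-- Some lift to the cover. -/
noncomputable def sec (g : swapGroup M) : Cover ↥(swapGroup M) :=
  Function.surjInv (π_surjective hM) g

lemma π_sec (g : swapGroup M) : π _ (sec hM g) = g := Function.surjInv_eq (π_surjective hM) g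

/-- A double commutator of lifts. -/
noncomputable def dc (a b c d : swapGroup M) : Cover ↥(swapGroup M) :=
  ⁅⁅sec hM a, sec hM b⁆, ⁅sec hM c, sec hM d⁆⁆

lemma commElem_congr {A A' B B' : Cover ↥(swapGroup M)} (hA : π _ A = π _ A')
    (hB : π _ B = π _ B') : ⁅A, B⁆ = ⁅A', B'⁆ := by
  have key : ∀ {Y Y' : Cover ↥(swapGroup M)}, π _ Y = π _ Y' →
      Y⁻¹ * Y' ∈ Subgroup.center (Cover ↥(swapGroup M)) :=
    fun h => π_central _ (by rw [MonoidHom.mem_ker, map_mul, map_inv, h, inv_mul_cancel])
  have := commElem_mul_central (x := A) (y := B) (key hA) (key hB)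
  rw [mul_inv_cancel_left, mul_inv_cancel_left] at this
  exact this.symm

/-- The double commutator does not depend on the lifts. -/
lemma dc_eq {A B C D : Cover ↥(swapGroup M)} {a b c d : swapGroup M}
    (hA : π _ A = a) (hB : π _ B = b) (hC : π _ C = c) (hD : π _ D = d) :
    dc hM a b c d = ⁅⁅A, B⁆, ⁅C, D⁆⁆ := by
  rw [dc, commElem_congr (A := sec hM a) (B := sec hM b) (A' := A) (B' := B)
      ((π_sec hM a).trans hA.symm) ((π_sec hM b).trans hB.symm),
    commElem_congr (A := sec hM c) (B := sec hM d) (A' := C) (B' := D)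
      ((π_sec hM c).trans hC.symm) ((π_sec hM d).trans hD.symm)]

/-- The cell permutations whose double commutator is the rotation of two bits. -/
def t₂ : Equiv.Perm Cell := Equiv.swap (false, true, false) (false, true, true)

/-- See `t₂`. -/
def t₄ : Equiv.Perm Cell := Equiv.swap (false, true, false) (true, false, true)

/-- See `t₂`. -/
def t₁ : Equiv.Perm Cell := Equiv.swap (false, true, false) (true, false, false)

lemma t_spec : ∀ q, ⁅⁅t₁, t₂⁆, ⁅t₁, t₄⁆⁆ q = ((q.2.1, q.1, q.2.2) : Cell) := by decide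

/-- The canonical lift of the rotation at `v` over `e`. -/
noncomputable def rotL (v : List Bool) (e : Set X) : Cover ↥(swapGroup M) :=
  dc hM (tw M v e t₁) (tw M v e t₂) (tw M v e t₁) (tw M v e t₄)

lemma map_rot (c : Bool) (v : List Bool) {e : Set X} (he : M.Idem e) :
    Schur.map (iMap M c) (rotL hM v e) = rotL hM (c :: v) e := by
  unfold rotL
  conv_rhs => rw [dc_eq hM
    (A := Schur.map (iMap M c) (sec hM (tw M v e t₁))) (B := Schur.map (iMap M c) (sec hM (tw M v e t₂)))
    (C := Schur.map (iMap M c) (sec hM (tw M v e t₁))) (D := Schur.map (iMap M c) (sec hM (tw M v e t₄)))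
    (by rw [π_map, π_sec, iMap_tw M c v he]) (by rw [π_map, π_sec, iMap_tw M c v he])
    (by rw [π_map, π_sec, iMap_tw M c v he]) (by rw [π_map, π_sec, iMap_tw M c v he])]
  simp only [dc, map_commutatorElement]

lemma rot_empty (v : List Bool) : rotL hM v (∅ : Set X) = 1 := by
  unfold rotL
  rw [tw_empty, tw_empty, tw_empty, dc_eq hM (A := 1) (B := 1) (C := 1) (D := 1)
    (map_one _) (map_one _) (map_one _) (map_one _)]
  simp

lemma commute_rot (v : List Bool) {e : Set X} (he : M.Idem e) (g : Cover ↥(swapGroup M))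
    (hg : ∀ y ∈ e, (π ↥(swapGroup M) g : Equiv.Perm X) (H.pre v y) = H.pre v y) :
    Commute g (rotL hM v e) := by
  have base : ∀ p, Commute (π ↥(swapGroup M) g) (π ↥(swapGroup M) (sec hM (tw M v e p))) := fun p => by
    rw [π_sec]
    exact tw_commute M v he p _ hg
  have h1 : ∀ p p', Commute g ⁅sec hM (tw M v e p), sec hM (tw M v e p')⁆ := fun p p' =>
    commute_commElem (π_central _) (base p) (base p')
  exact commute_commElem (π_central _) ((h1 t₁ t₂).map _) ((h1 t₁ t₄).map _)

lemma conj_rot (v w : List Bool) {m : Set (X × X)} (hm : M.mem m) (g : Cover ↥(swapGroup M))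
    (hg : ∀ x y, (x, y) ∈ m → (π ↥(swapGroup M) g : Equiv.Perm X) (H.pre v x) = H.pre w y) :
    g * rotL hM v (gdom m) * g⁻¹ = rotL hM w (gran m) := by
  have e : ∀ p, π _ (MulAut.conj g (sec hM (tw M v (gdom m) p))) = tw M w (gran m) p := fun p => by
    rw [MulAut.conj_apply, map_mul, map_mul, map_inv, π_sec, tw_conj M v w hm p _ hg]
  conv_rhs => rw [rotL, dc_eq hM (e t₁) (e t₂) (e t₁) (e t₄)]
  rw [← MulAut.conj_apply, rotL, dc]
  simp only [map_commutatorElement]

lemma commElem_mul_of_commute {G : Type*} [Group G] {a a' b b' : G} (h1 : Commute a' b)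
    (h4 : Commute a b') (h2 : Commute a ⁅a', b'⁆) (h3 : Commute b ⁅a', b'⁆) :
    ⁅a * a', b * b'⁆ = ⁅a, b⁆ * ⁅a', b'⁆ := by
  have c0 : b' * a⁻¹ * b'⁻¹ = a⁻¹ := by
    rw [mul_inv_eq_iff_eq_mul]
    exact h4.inv_left.eq.symm
  calc ⁅a * a', b * b'⁆ = a * (a' * b) * b' * a'⁻¹ * a⁻¹ * b'⁻¹ * b⁻¹ := by
        simp only [commutatorElement_def]; group
    _ = a * b * (a' * b' * a'⁻¹ * b'⁻¹) * (b' * a⁻¹ * b'⁻¹) * b⁻¹ := by rw [h1.eq]; group
    _ = a * b * (⁅a', b'⁆ * a⁻¹) * b⁻¹ := by rw [c0, commutatorElement_def a' b']; group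
    _ = a * b * a⁻¹ * (⁅a', b'⁆ * b⁻¹) := by rw [← h2.inv_left.eq]; group
    _ = a * b * a⁻¹ * b⁻¹ * ⁅a', b'⁆ := by rw [← h3.inv_left.eq]; group
    _ = _ := by rw [← commutatorElement_def]

/-- Rotations over disjoint idempotents multiply. -/
lemma rotL_union (v : List Bool) {e f : Set X} (he : M.Idem e) (hf : M.Idem f)
    (hd : Disjoint e f) : rotL hM v (e ∪ f) = rotL hM v e * rotL hM v f := by
  have hc : ∀ p p', Commute (tw M v e p) (tw M v f p') := fun p p' =>
    tw_commute M v hf p' _ fun y hy => tw_apply_of_not M v he p fun z hz h =>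
      Set.disjoint_left.1 hd hz ((H.pre_injective v h) ▸ hy)
  have hX : ∀ p p', π ↥(swapGroup M) ⁅sec hM (tw M v (e ∪ f) p), sec hM (tw M v (e ∪ f) p')⁆ =
      π ↥(swapGroup M) (⁅sec hM (tw M v e p), sec hM (tw M v e p')⁆ *
        ⁅sec hM (tw M v f p), sec hM (tw M v f p')⁆) := fun p p' => by
    simp only [map_mul, map_commutatorElement, π_sec, tw_union M v he hf hd]
    exact commElem_mul_of_commute (hc p' p).symm (hc p p')
      (((hc p p).mul_right (hc p p')).mul_right (hc p p).inv_right |>.mul_right (hc p p').inv_right)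
      (((hc p' p).mul_right (hc p' p')).mul_right (hc p' p).inv_right |>.mul_right
        (hc p' p').inv_right)
  have hcc : ∀ p p' r r', Commute ⁅sec hM (tw M v e p), sec hM (tw M v e p')⁆
      ⁅sec hM (tw M v f r), sec hM (tw M v f r')⁆ := fun p p' r r' => by
    have h : ∀ r, Commute (π ↥(swapGroup M) ⁅sec hM (tw M v e p), sec hM (tw M v e p')⁆)
        (π ↥(swapGroup M) (sec hM (tw M v f r))) := fun r => by
      simp only [map_commutatorElement, π_sec]
      exact (((hc p r).mul_left (hc p' r)).mul_left (hc p r).inv_left).mul_left (hc p' r).inv_left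
    exact commute_commElem (π_central _) (h r) (h r')
  unfold rotL dc
  rw [commElem_congr (A' := ⁅sec hM (tw M v e t₁), sec hM (tw M v e t₂)⁆ *
      ⁅sec hM (tw M v f t₁), sec hM (tw M v f t₂)⁆)
    (B' := ⁅sec hM (tw M v e t₁), sec hM (tw M v e t₄)⁆ *
      ⁅sec hM (tw M v f t₁), sec hM (tw M v f t₄)⁆) (hX t₁ t₂) (hX t₁ t₄)]
  exact commElem_mul_of_commute (hcc t₁ t₄ t₁ t₂).symm (hcc t₁ t₂ t₁ t₄)
    (((hcc t₁ t₂ t₁ t₂).mul_right (hcc t₁ t₂ t₁ t₄)).mul_right
      (hcc t₁ t₂ t₁ t₂).inv_right |>.mul_right (hcc t₁ t₂ t₁ t₄).inv_right)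
    (((hcc t₁ t₄ t₁ t₂).mul_right (hcc t₁ t₄ t₁ t₄)).mul_right
      (hcc t₁ t₄ t₁ t₂).inv_right |>.mul_right (hcc t₁ t₄ t₁ t₄).inv_right)

end Vale.Agent.P193
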