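import Vale.Agent.P193.Full.Lift.Gamma

/-! Finite tables of elements of the swap group: existence, refinement, composition. -/

namespace Vale.Agent.P193

universe u

variable {X : Type u} {H : Halving X}

/-- A row: source word, target word, coefficient. -/
abbrev Row (X : Type u) := List Bool × List Bool × Set (X × X)

/-- A finite list of rows describing a permutation. -/
structure IsTable (M : Coeff H) (g : Equiv.Perm X) (T : List (Row X)) : Prop where
  mem : ∀ t ∈ T, M.mem t.2.2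
  cover : ∀ x, ∃ t ∈ T, ∃ y ∈ gdom t.2.2, x = H.pre t.1 y
  apart : T.Pairwise fun t s => ∀ y ∈ gdom t.2.2, ∀ y' ∈ gdom s.2.2, H.pre t.1 y ≠ H.pre s.1 y'
  graph : ∀ t ∈ T, ∀ x y, (x, y) ∈ t.2.2 → g (H.pre t.1 x) = H.pre t.2.1 y

/-- Rows covering everything. -/
structure PreTable (M : Coeff H) (g : Equiv.Perm X) (T : List (Row X)) : Prop where
  mem : ∀ t ∈ T, M.mem t.2.2
  cover : ∀ x, ∃ t ∈ T, ∃ y ∈ gdom t.2.2, x = H.pre t.1 y
  graph : ∀ t ∈ T, ∀ x y, (x, y) ∈ t.2.2 → g (H.pre t.1 x) = H.pre t.2.1 y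

variable {M : Coeff H}

lemma IsTable.pre' {g : Equiv.Perm X} {T : List (Row X)} (h : IsTable M g T) : PreTable M g T :=
  ⟨h.mem, h.cover, h.graph⟩

namespace Halving

lemma rigid {r : List Bool} {z z' : X} (h : ∀ s, H.pre r (H.pre s z) = H.pre s z') : r = [] := by
  cases r with
  | nil => rfl
  | cons b r =>
    have := congrArg H.hd (h [!b])
    simp [pre] at this

/-- Of two words at one point one extends the other. -/
lemma pre_compare {u u' : List Bool} {y y' : X} (h : H.pre u y = H.pre u' y') :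
    (∃ r, u' = u ++ r ∧ y = H.pre r y') ∨ ∃ r, u = u' ++ r ∧ y' = H.pre r y := by
  induction u generalizing u' with
  | nil => exact Or.inl ⟨u', rfl, h⟩
  | cons c u ih =>
    cases u' with
    | nil => exact Or.inr ⟨c :: u, rfl, h.symm⟩
    | cons d u' =>
      have e := H.cons.injective h
      obtain rfl : c = d := congrArg Prod.fst e
      rcases ih (congrArg Prod.snd e) with ⟨r, h1, h2⟩ | ⟨r, h1, h2⟩
      · exact Or.inl ⟨r, by simp [h1], h2⟩
      · exact Or.inr ⟨r, by simp [h1], h2⟩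

end Halving

lemma Coeff.mem_pre_left {m : Set (X × X)} (hm : M.mem m) (r : List Bool) {x z : X}
    (h : (H.pre r x, z) ∈ m) : ∃ z', z = H.pre r z' ∧ (x, z') ∈ m := by
  induction r generalizing z with
  | nil => exact ⟨z, rfl, h⟩
  | cons c r ih =>
    obtain ⟨d, w, rfl⟩ := H.exists_cons z
    obtain ⟨rfl, h'⟩ := (M.bit _ hm c d _ _).1 h
    obtain ⟨z', rfl, hz'⟩ := ih h'
    exact ⟨z', rfl, hz'⟩

/-- Rows through one point have the same source word. -/
lemma rows_src_eq {g : Equiv.Perm X} {t t' : Row X} (ht : M.mem t.2.2) (ht' : M.mem t'.2.2)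
    (hg : ∀ x y, (x, y) ∈ t.2.2 → g (H.pre t.1 x) = H.pre t.2.1 y)
    (hg' : ∀ x y, (x, y) ∈ t'.2.2 → g (H.pre t'.1 x) = H.pre t'.2.1 y)
    (hlen : t.2.1.length = t'.2.1.length) {y y' : X} (hy : y ∈ gdom t.2.2) (hy' : y' ∈ gdom t'.2.2)
    (h : H.pre t.1 y = H.pre t'.1 y') : t.1 = t'.1 ∧ y = y' := by
  suffices key : ∀ (t t' : Row X), M.mem t.2.2 → M.mem t'.2.2 →
      (∀ x y, (x, y) ∈ t.2.2 → g (H.pre t.1 x) = H.pre t.2.1 y) →
      (∀ x y, (x, y) ∈ t'.2.2 → g (H.pre t'.1 x) = H.pre t'.2.1 y) →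
      t.2.1.length = t'.2.1.length → ∀ y y', y ∈ gdom t.2.2 → y' ∈ gdom t'.2.2 →
      ∀ r, t'.1 = t.1 ++ r → y = H.pre r y' → r = [] by
    rcases Halving.pre_compare h with ⟨r, h1, h2⟩ | ⟨r, h1, h2⟩
    · obtain rfl := key t t' ht ht' hg hg' hlen y y' hy hy' r h1 h2
      exact ⟨by simpa using h1.symm, by simpa [Halving.pre] using h2⟩
    · obtain rfl := key t' t ht' ht hg' hg hlen.symm y' y hy' hy r h1 h2
      exact ⟨by simpa using h1, by simpa [Halving.pre] using h2.symm⟩
  intro t t' ht ht' hg hg' hlen y y' ⟨z, hz⟩ ⟨z', hz'⟩ r h1 h2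
  subst h2
  obtain ⟨w, rfl, hw⟩ := M.mem_pre_left ht r hz
  have key : ∀ s, H.pre r (H.pre s w) = H.pre s z' := by
    intro s
    have e1 := hg _ _ (M.mem_pre ht (r ++ s) hw)
    have e2 := hg' _ _ (M.mem_pre ht' s hz')
    rw [h1, H.pre_append, ← H.pre_append r s y', e1, H.pre_append r s w] at e2
    exact (H.pre_eq_of_length hlen e2).2
  exact H.rigid key

/-- A table read backwards. -/
def flipT (T : List (Row X)) : List (Row X) := T.map fun t => (t.2.1, t.1, ginv t.2.2)

lemma flipT_flipT (T : List (Row X)) : flipT (flipT T) = T := by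
  simp [flipT, ginv, Function.comp_def]

/-- Lengths on the target side. -/
def UnifR (T : List (Row X)) (N : ℕ) : Prop := ∀ t ∈ T, t.2.1.length = N

/-- All words of a table are short. -/
def Short (T : List (Row X)) (N : ℕ) : Prop := ∀ t ∈ T, t.1.length ≤ N ∧ t.2.1.length ≤ N

lemma exists_short (T : List (Row X)) : ∃ N, Short T N := by
  induction T with
  | nil => exact ⟨0, by simp [Short]⟩
  | cons t T ih =>
    obtain ⟨N, hN⟩ := ih
    refine ⟨N + t.1.length + t.2.1.length, fun s hs => ?_⟩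
    rcases List.mem_cons.1 hs with rfl | hs
    · omega
    · have := hN s hs
      omega

/-- The code of the sources. -/
def pcode (T : List (Row X)) : Code X := fun u => {y | ∃ t ∈ T, t.1 = u ∧ y ∈ gdom t.2.2}

/-- The code of the targets. -/
def qcode (T : List (Row X)) : Code X := pcode (flipT T)

lemma idem_of_rows (T : List (Row X)) (hT : ∀ t ∈ T, M.mem t.2.2) (p : Row X → Prop) :
    M.Idem {y | ∃ t ∈ T, p t ∧ y ∈ gdom t.2.2} := by
  induction T with
  | nil => simpa using M.idem_empty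
  | cons t T ih =>
    have h' := ih fun s hs => hT s (List.mem_cons_of_mem _ hs)
    by_cases hp : p t
    · convert M.idem_union (M.idem_gdom (hT t List.mem_cons_self)) h' using 1
      ext y
      simp [hp]
    · convert h' using 1
      ext y
      simp [hp]

lemma pcode_below (T : List (Row X)) (w : List Bool) :
    Code.below (fun v => pcode T (w ++ v)) =
      {y | ∃ t ∈ T, (∃ v, v ≠ [] ∧ t.1 = w ++ v) ∧ y ∈ gdom t.2.2} := by
  ext y
  constructor
  · rintro ⟨v, hv, t, ht, e, hy⟩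
    exact ⟨t, ht, ⟨v, hv, e⟩, hy⟩
  · rintro ⟨t, ht, ⟨v, hv, e⟩, hy⟩
    exact ⟨v, hv, t, ht, e, hy⟩

lemma pcode_empty_of_short {T : List (Row X)} {N : ℕ} (h : Short T N) (u : List Bool)
    (hu : N < u.length) : pcode T u = ∅ := by
  refine Set.eq_empty_of_forall_notMem fun y ⟨t, ht, e, _⟩ => ?_
  have := (h t ht).1
  rw [e] at this
  omega

lemma short_flipT {T : List (Row X)} {N : ℕ} (h : Short T N) : Short (flipT T) N := by
  intro t ht
  obtain ⟨s, hs, rfl⟩ := List.mem_map.1 ht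
  exact ⟨(h s hs).2, (h s hs).1⟩

namespace IsTable

variable {g : Equiv.Perm X} {T : List (Row X)}

lemma perm {T' : List (Row X)} (h : IsTable M g T) (e : T.Perm T') : IsTable M g T' where
  mem t ht := h.mem t (e.mem_iff.2 ht)
  cover x := by
    obtain ⟨t, ht, hx⟩ := h.cover x
    exact ⟨t, e.mem_iff.1 ht, hx⟩
  apart := by
    refine (e.pairwise_iff ?_).1 h.apart
    intro t s hts y hy y' hy' eq
    exact hts y' hy' y hy eq.symm
  graph t ht := h.graph t (e.mem_iff.2 ht)

lemma graph_inv (h : IsTable M g T) {t : Row X} (ht : t ∈ T) {x y : X} (hxy : (x, y) ∈ t.2.2) :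
    g⁻¹ (H.pre t.2.1 y) = H.pre t.1 x := by
  rw [← h.graph t ht x y hxy]
  simp

/-- Splitting one row by its next bit. -/
lemma split {t : Row X} (h : IsTable M g (t :: T)) :
    IsTable M g ((t.1 ++ [false], t.2.1 ++ [false], t.2.2) ::
      (t.1 ++ [true], t.2.1 ++ [true], t.2.2) :: T) where
  mem s hs := by
    rcases List.mem_cons.1 hs with rfl | hs
    · exact h.mem t List.mem_cons_self
    rcases List.mem_cons.1 hs with rfl | hs
    · exact h.mem t List.mem_cons_self
    · exact h.mem s (List.mem_cons_of_mem _ hs)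
  cover x := by
    obtain ⟨s, hs, y, hy, rfl⟩ := h.cover x
    rcases List.mem_cons.1 hs with rfl | hs
    · obtain ⟨c, z, rfl⟩ := H.exists_cons y
      have hz := (M.idem_cons (M.idem_gdom (h.mem s List.mem_cons_self)) c z).1 hy
      cases c
      · exact ⟨_, List.mem_cons_self, z, hz, (H.pre_append s.1 [false] z).symm⟩
      · exact ⟨_, List.mem_cons_of_mem _ List.mem_cons_self, z, hz,
          (H.pre_append s.1 [true] z).symm⟩
    · exact ⟨s, List.mem_cons_of_mem _ (List.mem_cons_of_mem _ hs), y, hy, rfl⟩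
  apart := by
    have htm := M.idem_gdom (h.mem t List.mem_cons_self)
    have ha := List.pairwise_cons.1 h.apart
    refine List.pairwise_cons.2 ⟨?_, List.pairwise_cons.2 ⟨?_, ha.2⟩⟩
    · intro s hs y hy y' hy' e
      rw [H.pre_append] at e
      rcases List.mem_cons.1 hs with rfl | hs
      · rw [H.pre_append] at e
        exact Bool.false_ne_true (congrArg Prod.fst (H.cons.injective (H.pre_injective _ e)))
      · exact ha.1 s hs _ ((M.idem_cons htm false y).2 hy) y' hy' e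
    · intro s hs y hy y' hy' e
      rw [H.pre_append] at e
      exact ha.1 s hs _ ((M.idem_cons htm true y).2 hy) y' hy' e
  graph s hs := by
    have key : ∀ c : Bool, ∀ x y, (x, y) ∈ t.2.2 →
        g (H.pre (t.1 ++ [c]) x) = H.pre (t.2.1 ++ [c]) y := fun c x y hxy => by
      rw [H.pre_append, H.pre_append]
      exact h.graph t List.mem_cons_self _ _ (M.mem_pre (h.mem t List.mem_cons_self) [c] hxy)
    rcases List.mem_cons.1 hs with rfl | hs
    · exact key false
    rcases List.mem_cons.1 hs with rfl | hs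
    · exact key true
    · exact h.graph s (List.mem_cons_of_mem _ hs)

lemma flip (h : IsTable M g T) : IsTable M g⁻¹ (flipT T) where
  mem s hs := by
    obtain ⟨t, ht, rfl⟩ := List.mem_map.1 hs
    exact M.inv_mem _ (h.mem t ht)
  cover x := by
    obtain ⟨t, ht, y, ⟨z, hz⟩, e⟩ := h.cover (g⁻¹ x)
    refine ⟨_, List.mem_map.2 ⟨t, ht, rfl⟩, z, ⟨y, hz⟩, ?_⟩
    change x = H.pre t.2.1 z
    rw [← h.graph t ht y z hz, ← e]
    simp
  apart := by
    refine List.pairwise_map.2 (h.apart.imp_of_mem ?_)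
    intro t s ht hs hts z ⟨y, hy⟩ z' ⟨y', hy'⟩ e
    refine hts y ⟨z, hy⟩ y' ⟨z', hy'⟩ ?_
    rw [← h.graph_inv ht hy, ← h.graph_inv hs hy']
    exact congrArg (g⁻¹ : Equiv.Perm X) e
  graph s hs := by
    obtain ⟨t, ht, rfl⟩ := List.mem_map.1 hs
    intro x y hxy
    exact h.graph_inv ht hxy

lemma nice (h : IsTable M g T) : (pcode T).Nice M where
  idem u := idem_of_rows T h.mem fun t => t.1 = u
  below_idem w := by
    rw [pcode_below]
    exact idem_of_rows T h.mem fun t => ∃ v, v ≠ [] ∧ t.1 = w ++ v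
  uniq u u' y y' := by
    rintro ⟨t, ht, rfl, hy⟩ ⟨s, hs, rfl, hy'⟩ e
    by_contra hne
    rcases eq_or_ne t s with rfl | hts
    · exact hne rfl
    · have : Std.Symm fun t s : Row X =>
          ∀ y ∈ gdom t.2.2, ∀ y' ∈ gdom s.2.2, H.pre t.1 y ≠ H.pre s.1 y' :=
        ⟨fun a b hab x hx x' hx' e => hab x' hx' x hx e.symm⟩
      exact h.apart.forall ht hs hts y hy y' hy' e

lemma nice' (h : IsTable M g T) : (qcode T).Nice M := h.flip.nice

/-- The source code after a split. -/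
lemma pcode_split {t : Row X} (h : IsTable M g (t :: T)) :
    pcode ((t.1 ++ [false], t.2.1 ++ [false], t.2.2) ::
      (t.1 ++ [true], t.2.1 ++ [true], t.2.2) :: T) =
      splitCode (pcode (t :: T)) t.1 (gdom t.2.2) := by
  funext v
  ext y
  have hne : ∀ c : Bool, t.1 ++ [c] ≠ t.1 := fun c e => by simpa using congrArg List.length e
  simp only [splitCode, pcode, List.mem_cons, exists_eq_or_imp, Set.mem_setOf_eq]
  by_cases hv : v = t.1
  · subst hv
    simp only [if_true, Set.mem_diff, Set.mem_setOf_eq, hne, false_and, false_or, true_and]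
    constructor
    · rintro ⟨s, hs, e, hy⟩
      exact ⟨Or.inr ⟨s, hs, e, hy⟩, fun hy' =>
        (List.pairwise_cons.1 h.apart).1 s hs y hy' y hy (by rw [e])⟩
    · rintro ⟨h' | h', hn⟩
      · exact absurd h' hn
      · exact h'
  · simp only [if_neg hv, Ne.symm hv, false_and, false_or]
    by_cases h2 : v = t.1 ++ [false] ∨ v = t.1 ++ [true]
    · rw [if_pos h2]
      rcases h2 with rfl | rfl <;>
        simp [Set.mem_union, or_comm]
    · rw [if_neg h2]
      push Not at h2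
      simp [Ne.symm h2.1, Ne.symm h2.2]

/-- With targets of one length, the source code does not depend on the table. -/
lemma pcode_eq {T' : List (Row X)} {N : ℕ} (h : IsTable M g T) (h' : IsTable M g T')
    (hu : UnifR T N) (hu' : UnifR T' N) : pcode T = pcode T' := by
  suffices key : ∀ {T T' : List (Row X)}, IsTable M g T → IsTable M g T' → UnifR T N →
      UnifR T' N → ∀ v y, y ∈ pcode T v → y ∈ pcode T' v by
    funext v
    ext y
    exact ⟨key h h' hu hu' v y, key h' h hu' hu v y⟩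
  rintro T T' h h' hu hu' v y ⟨t, ht, rfl, hy⟩
  obtain ⟨s, hs, y', hy', e⟩ := h'.cover (H.pre t.1 y)
  obtain ⟨e1, rfl⟩ := rows_src_eq (h.mem t ht) (h'.mem s hs) (h.graph t ht) (h'.graph s hs)
    ((hu t ht).trans (hu' s hs).symm) hy hy' e
  exact ⟨s, hs, e1.symm, hy'⟩

/-- With targets of one length, the target code is full. -/
lemma qcode_eq {N : ℕ} (h : IsTable M g T) (hu : UnifR T N) :
    qcode T = fun v => {_y : X | v.length = N} := by
  funext v
  ext y
  constructor
  · rintro ⟨s, hs, rfl, -⟩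
    obtain ⟨t, ht, rfl⟩ := List.mem_map.1 hs
    exact hu t ht
  · intro hv
    obtain ⟨t, ht, z, hz, e⟩ := h.flip.cover (H.pre v y)
    obtain ⟨t', ht', rfl⟩ := List.mem_map.1 ht
    obtain ⟨rfl, rfl⟩ := H.pre_eq_of_length (hv.trans (hu t' ht').symm) e
    exact ⟨_, ht, rfl, hz⟩

/-- Composition through a uniform middle. -/
lemma comp {g' : Equiv.Perm X} {T' : List (Row X)} {N : ℕ} (h : IsTable M g T)
    (h' : IsTable M g' T') (hu : UnifR T N) (hu' : ∀ t ∈ T', t.1.length = N) :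
    ∃ T'', IsTable M (g' * g) T'' ∧ pcode T'' = pcode T ∧ qcode T'' = qcode T' ∧
      ∀ B, Short T B → Short T' B → Short T'' B := by
  classical
  let T'' : List (Row X) := T.flatMap fun t =>
    (T'.filter fun s => decide (s.1 = t.2.1)).map fun s => (t.1, s.2.1, gcomp t.2.2 s.2.2)
  have hmem : ∀ r, r ∈ T'' ↔
      ∃ t ∈ T, ∃ s ∈ T', s.1 = t.2.1 ∧ r = (t.1, s.2.1, gcomp t.2.2 s.2.2) := by
    intro r
    simp only [T'', List.mem_flatMap, List.mem_map, List.mem_filter, decide_eq_true_eq]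
    constructor
    · rintro ⟨t, ht, s, ⟨hs, e⟩, rfl⟩; exact ⟨t, ht, s, hs, e, rfl⟩
    · rintro ⟨t, ht, s, hs, e, rfl⟩; exact ⟨t, ht, s, ⟨hs, e⟩, rfl⟩
  have hmid : ∀ t ∈ T, ∀ y z, (y, z) ∈ t.2.2 →
      ∃ s ∈ T', s.1 = t.2.1 ∧ y ∈ gdom (gcomp t.2.2 s.2.2) := by
    intro t ht y z hyz
    obtain ⟨s, hs, z', ⟨w, hw⟩, e⟩ := h'.cover (H.pre t.2.1 z)
    obtain ⟨e1, rfl⟩ := H.pre_eq_of_length ((hu t ht).trans (hu' s hs).symm) e
    exact ⟨s, hs, e1.symm, w, z, hyz, hw⟩
  refine ⟨T'', ⟨?_, ?_, ?_, ?_⟩, ?_, ?_, ?_⟩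
  · intro r hr
    obtain ⟨t, ht, s, hs, -, rfl⟩ := (hmem r).1 hr
    exact M.comp_mem _ _ (h.mem t ht) (h'.mem s hs)
  · intro x
    obtain ⟨t, ht, y, ⟨z, hyz⟩, rfl⟩ := h.cover x
    obtain ⟨s, hs, e, hy⟩ := hmid t ht y z hyz
    exact ⟨_, (hmem _).2 ⟨t, ht, s, hs, e, rfl⟩, y, hy, rfl⟩
  · refine List.pairwise_flatMap.2 ⟨fun t ht => ?_, h.apart.imp ?_⟩
    · refine List.pairwise_map.2 ((h'.apart.filter _).imp_of_mem ?_)
      intro s s' hs hs' hss y ⟨w, z, hyz, hzw⟩ y' ⟨w', z', hyz', hzw'⟩ e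
      obtain rfl := H.pre_injective _ e
      obtain rfl := (M.pb _ (h.mem t ht)).1 _ _ _ hyz hyz'
      simp only [List.mem_filter, decide_eq_true_eq] at hs hs'
      exact hss z ⟨w, hzw⟩ z ⟨w', hzw'⟩ (by rw [hs.2, hs'.2])
    · intro t t' htt r hr r' hr' y hy y' hy'
      simp only [List.mem_map] at hr hr'
      obtain ⟨s, -, rfl⟩ := hr
      obtain ⟨s', -, rfl⟩ := hr'
      obtain ⟨w, z, hyz, -⟩ := hy
      obtain ⟨w', z', hyz', -⟩ := hy'
      exact htt y ⟨z, hyz⟩ y' ⟨z', hyz'⟩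
  · intro r hr x y hxy
    obtain ⟨t, ht, s, hs, e, rfl⟩ := (hmem r).1 hr
    obtain ⟨z, hxz, hzy⟩ := hxy
    rw [Equiv.Perm.mul_apply, h.graph t ht _ _ hxz, ← e, h'.graph s hs _ _ hzy]
  · funext v
    ext y
    constructor
    · rintro ⟨r, hr, rfl, hy⟩
      obtain ⟨t, ht, s, hs, -, rfl⟩ := (hmem r).1 hr
      obtain ⟨w, z, hyz, -⟩ := hy
      exact ⟨t, ht, rfl, z, hyz⟩
    · rintro ⟨t, ht, rfl, z, hyz⟩
      obtain ⟨s, hs, e, hy⟩ := hmid t ht y z hyz
      exact ⟨_, (hmem _).2 ⟨t, ht, s, hs, e, rfl⟩, rfl, hy⟩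
  · funext v
    ext w
    constructor
    · rintro ⟨r, hr, rfl, hw⟩
      obtain ⟨r', hr', rfl⟩ := List.mem_map.1 hr
      obtain ⟨t, ht, s, hs, -, rfl⟩ := (hmem r').1 hr'
      obtain ⟨y, z, -, hzw⟩ := hw
      exact ⟨_, List.mem_map.2 ⟨s, hs, rfl⟩, rfl, z, hzw⟩
    · rintro ⟨r, hr, rfl, z, hzw⟩
      obtain ⟨s, hs, rfl⟩ := List.mem_map.1 hr
      change (z, w) ∈ s.2.2 at hzw
      obtain ⟨t, ht, z', ⟨y, hy⟩, e⟩ := h.flip.cover (H.pre s.1 z)
      obtain ⟨t', ht', rfl⟩ := List.mem_map.1 ht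
      obtain ⟨e1, rfl⟩ := H.pre_eq_of_length ((hu' s hs).trans (hu t' ht').symm) e
      exact ⟨_, List.mem_map.2 ⟨_, (hmem _).2 ⟨t', ht', s, hs, e1, rfl⟩, rfl⟩, rfl,
        y, z, hy, hzw⟩
  · intro B hB hB' r hr
    obtain ⟨t, ht, s, hs, -, rfl⟩ := (hmem r).1 hr
    exact ⟨(hB t ht).1, (hB' s hs).2⟩

end IsTable

/-- A property of tables closed under splitting passes to a table with uniform targets. -/
lemma exists_unifR {g : Equiv.Perm X} (P : List (Row X) → Prop) {N : ℕ}
    (hperm : ∀ {T T' : List (Row X)}, T.Perm T' → P T → P T')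
    (hsplit : ∀ {t : Row X} {T : List (Row X)}, IsTable M g (t :: T) → t.2.1.length < N →
      P (t :: T) → P ((t.1 ++ [false], t.2.1 ++ [false], t.2.2) ::
        (t.1 ++ [true], t.2.1 ++ [true], t.2.2) :: T))
    {T : List (Row X)} (h : IsTable M g T) (hT : ∀ t ∈ T, t.2.1.length ≤ N) (hP : P T) :
    ∃ T', IsTable M g T' ∧ UnifR T' N ∧ P T' := by
  suffices key : ∀ d (T : List (Row X)), (T.map fun t => 2 ^ (N - t.2.1.length) - 1).sum = d →
      IsTable M g T → (∀ t ∈ T, t.2.1.length ≤ N) → P T →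
      ∃ T', IsTable M g T' ∧ UnifR T' N ∧ P T' from key _ T rfl h hT hP
  intro d
  induction d using Nat.strong_induction_on with
  | _ d ih =>
    intro T hd h hT hP
    by_cases hu : UnifR T N
    · exact ⟨T, h, hu, hP⟩
    simp only [UnifR, not_forall] at hu
    obtain ⟨t, ht, hne⟩ := hu
    obtain ⟨T₁, T₂, rfl⟩ := List.append_of_mem ht
    have hp : (T₁ ++ t :: T₂).Perm (t :: (T₁ ++ T₂)) := List.perm_middle
    have h' := h.perm hp
    have hlt : t.2.1.length < N := lt_of_le_of_ne (hT t ht) hne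
    refine ih _ ?_ _ rfl h'.split ?_ (hsplit h' hlt (hperm hp hP))
    · rw [← hd, List.Perm.sum_eq (hp.map _)]
      simp only [List.map_cons, List.sum_cons, List.length_append, List.length_singleton]
      have e : 2 ^ (N - t.2.1.length) = 2 * 2 ^ (N - (t.2.1.length + 1)) := by
        rw [← pow_succ']
        congr 1
        omega
      have := Nat.one_le_two_pow (n := N - (t.2.1.length + 1))
      omega
    · intro s hs
      rcases List.mem_cons.1 hs with rfl | hs
      · simp only [List.length_append, List.length_singleton]; omega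
      rcases List.mem_cons.1 hs with rfl | hs
      · simp only [List.length_append, List.length_singleton]; omega
      · exact hT s (hp.mem_iff.2 (List.mem_cons_of_mem _ hs))

/-- Sources can be made disjoint once all words have one length. -/
lemma PreTable.exists_table {g : Equiv.Perm X} {T : List (Row X)} (h : PreTable M g T) {N : ℕ}
    (hN : ∀ t ∈ T, t.1.length = N) : ∃ T', IsTable M g T' := by
  classical
  suffices key : ∀ T : List (Row X), (∀ t ∈ T, M.mem t.2.2) → (∀ t ∈ T, t.1.length = N) →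
      (∀ t ∈ T, ∀ x y, (x, y) ∈ t.2.2 → g (H.pre t.1 x) = H.pre t.2.1 y) →
      ∃ T' : List (Row X), (∀ t ∈ T', M.mem t.2.2) ∧ (∀ t ∈ T', t.1.length = N) ∧
      (∀ t ∈ T', ∀ x y, (x, y) ∈ t.2.2 → g (H.pre t.1 x) = H.pre t.2.1 y) ∧
      T'.Pairwise (fun t s => ∀ y ∈ gdom t.2.2, ∀ y' ∈ gdom s.2.2, H.pre t.1 y ≠ H.pre s.1 y') ∧
      ∀ t ∈ T, ∀ y ∈ gdom t.2.2, ∃ s ∈ T', s.1 = t.1 ∧ y ∈ gdom s.2.2 by
    obtain ⟨T', h1, -, h3, h4, h5⟩ := key T h.mem hN h.graph
    refine ⟨T', h1, fun x => ?_, h4, h3⟩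
    obtain ⟨t, ht, y, hy, rfl⟩ := h.cover x
    obtain ⟨s, hs, e, hy'⟩ := h5 t ht y hy
    exact ⟨s, hs, y, hy', by rw [e]⟩
  intro T hm hl hg
  induction T with
  | nil =>
    exact ⟨[], by simp, by simp, by simp, List.Pairwise.nil, by simp⟩
  | cons t T ih =>
    obtain ⟨T', h1, h2, h3, h4, h5⟩ := ih (fun s hs => hm s (List.mem_cons_of_mem _ hs))
      (fun s hs => hl s (List.mem_cons_of_mem _ hs)) (fun s hs => hg s (List.mem_cons_of_mem _ hs))
    have htm := hm t List.mem_cons_self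
    let e : Set X := {y | ∃ s ∈ T', s.1 = t.1 ∧ y ∈ gdom s.2.2}
    have he : M.Idem e := idem_of_rows T' h1 _
    let t' : Row X := (t.1, t.2.1, gcomp (gid eᶜ) t.2.2)
    refine ⟨t' :: T', ?_, ?_, ?_, List.pairwise_cons.2 ⟨?_, h4⟩, ?_⟩
    · intro s hs
      rcases List.mem_cons.1 hs with rfl | hs
      · exact M.comp_mem _ _ (M.idem_compl he) htm
      · exact h1 s hs
    · intro s hs
      rcases List.mem_cons.1 hs with rfl | hs
      · exact hl t List.mem_cons_self
      · exact h2 s hs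
    · intro s hs x y hxy
      rcases List.mem_cons.1 hs with rfl | hs
      · obtain ⟨z, hz1, hzy⟩ := hxy
        obtain ⟨hxz, -⟩ := hz1
        simp only at hxz
        subst hxz
        exact hg t List.mem_cons_self _ _ hzy
      · exact h3 s hs x y hxy
    · intro s hs y hy y' hy' eq
      obtain ⟨z, x, ⟨-, hx⟩, -⟩ := hy
      obtain ⟨e1, rfl⟩ := H.pre_eq_of_length ((hl t List.mem_cons_self).trans (h2 s hs).symm) eq
      exact hx ⟨s, hs, e1.symm, hy'⟩
    · intro s hs y hy
      rcases List.mem_cons.1 hs with rfl | hs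
      · by_cases hye : y ∈ e
        · obtain ⟨r, hr, e1, hy'⟩ := hye
          exact ⟨r, List.mem_cons_of_mem _ hr, e1, hy'⟩
        · obtain ⟨z, hz⟩ := hy
          exact ⟨t', List.mem_cons_self, rfl, z, y, ⟨rfl, hye⟩, hz⟩
      · obtain ⟨r, hr, e1, hy'⟩ := h5 s hs y hy
        exact ⟨r, List.mem_cons_of_mem _ hr, e1, hy'⟩

/-- All extensions of a word by a given number of bits. -/
def bitWords : ℕ → List (List Bool)
  | 0 => [[]]
  | n + 1 => (bitWords n).map (List.cons false) ++ (bitWords n).map (List.cons true)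

lemma mem_bitWords {n : ℕ} {w : List Bool} : w ∈ bitWords n ↔ w.length = n := by
  induction n generalizing w with
  | zero => simp [bitWords]
  | succ n ih =>
    cases w with
    | nil => simp [bitWords]
    | cons c w => cases c <;> simp [bitWords, ih]

/-- Every swap has a table. -/
lemma exists_table_swap (b : Bis M) : ∃ T, IsTable M (swapPerm b) T := by
  classical
  obtain ⟨l, hl, eb⟩ := b.2.2.2
  obtain ⟨N, hN⟩ : ∃ N, ∀ t ∈ l, t.1.length ≤ N ∧ t.2.1.length ≤ N := exists_short l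
  -- the two directions of every piece, and the fixed part at depth `N`
  let mv : List (Row X) := l ++ flipT l
  have hmv : ∀ t ∈ mv, M.mem t.2.2 ∧ t.1.length ≤ N ∧
      ∀ x y, (x, y) ∈ t.2.2 → swapPerm b (H.pre t.1 x) = H.pre t.2.1 y := by
    intro t ht
    rcases List.mem_append.1 ht with ht | ht
    · refine ⟨hl t ht, (hN t ht).1, fun x y hxy => swapFun_eq_of_mem b.2.1 ?_⟩
      exact eb.symm ▸ ⟨t, ht, (x, y), hxy, rfl⟩
    · obtain ⟨s, hs, rfl⟩ := List.mem_map.1 ht
      refine ⟨M.inv_mem _ (hl s hs), (hN s hs).2, fun x y hxy =>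
        swapFun_eq_of_mem' b.2.1 b.2.2.1 ?_⟩
      exact eb.symm ▸ ⟨s, hs, (y, x), hxy, rfl⟩
  let ext : Row X → List (Row X) := fun t =>
    (bitWords (N - t.1.length)).map fun r => (t.1 ++ r, t.2.1 ++ r, t.2.2)
  let moved : List Bool → Set X := fun w =>
    {y | ∃ t ∈ mv.flatMap ext, t.1 = w ∧ y ∈ gdom t.2.2}
  let T : List (Row X) := mv.flatMap ext ++ (bitWords N).map fun w => (w, w, gid (moved w)ᶜ)
  have hext : ∀ s ∈ mv.flatMap ext, M.mem s.2.2 ∧ s.1.length = N ∧
      ∀ x y, (x, y) ∈ s.2.2 → swapPerm b (H.pre s.1 x) = H.pre s.2.1 y := by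
    intro s hs
    obtain ⟨t, ht, hs⟩ := List.mem_flatMap.1 hs
    obtain ⟨r, hr, rfl⟩ := List.mem_map.1 hs
    obtain ⟨h1, h2, h3⟩ := hmv t ht
    refine ⟨h1, ?_, fun x y hxy => ?_⟩
    · rw [List.length_append, mem_bitWords.1 hr]
      omega
    · simp only [H.pre_append]
      exact h3 _ _ (M.mem_pre h1 r hxy)
  have hmoved : ∀ w, M.Idem (moved w) := fun w => idem_of_rows _ (fun t ht => (hext t ht).1) _
  refine PreTable.exists_table (T := T) (N := N) ⟨?_, ?_, ?_⟩ ?_
  · intro s hs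
    rcases List.mem_append.1 hs with hs | hs
    · exact (hext s hs).1
    · obtain ⟨w, -, rfl⟩ := List.mem_map.1 hs
      exact M.idem_compl (hmoved w)
  · intro x
    obtain ⟨w, y, hw, rfl⟩ := H.exists_pre N x
    by_cases hy : y ∈ moved w
    · obtain ⟨t, ht, rfl, hy⟩ := hy
      exact ⟨t, List.mem_append_left _ ht, y, hy, rfl⟩
    · exact ⟨_, List.mem_append_right _ (List.mem_map.2 ⟨w, mem_bitWords.2 hw, rfl⟩), y,
        (gdom_gidL (moved w)ᶜ).symm ▸ hy, rfl⟩
  · intro s hs x y hxy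
    rcases List.mem_append.1 hs with hs | hs
    · exact (hext s hs).2.2 x y hxy
    · obtain ⟨w, hw, rfl⟩ := List.mem_map.1 hs
      obtain ⟨e, hx⟩ := hxy
      simp only at e
      subst e
      have hnot : ∀ z, (H.pre w x, z) ∉ b.1 ∧ (z, H.pre w x) ∉ b.1 := by
        have key : ∀ t ∈ mv, ∀ u ∈ gdom t.2.2, H.pre w x ≠ H.pre t.1 u := by
          intro t ht u hu e
          obtain ⟨r, z, hr, rfl⟩ := H.exists_pre (N - t.1.length) u
          rw [← H.pre_append] at e
          obtain ⟨rfl, rfl⟩ := H.pre_eq_of_length (by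
            rw [List.length_append, hr, mem_bitWords.1 hw]
            have := (hmv t ht).2.1
            omega) e
          exact hx ⟨_, List.mem_flatMap.2 ⟨t, ht, List.mem_map.2 ⟨r, mem_bitWords.2 hr, rfl⟩⟩, rfl,
            (M.idem_pre (M.idem_gdom (hmv t ht).1) r _).1 hu⟩
        intro z
        constructor <;> intro hz <;> rw [eb] at hz <;> obtain ⟨t, ht, ⟨a, c⟩, hac, e⟩ := hz <;>
          simp only [Prod.mk.injEq] at e
        · exact key t (List.mem_append_left _ ht) a ⟨c, hac⟩ e.1.symm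
        · exact key _ (List.mem_append_right _ (List.mem_map.2 ⟨t, ht, rfl⟩)) c ⟨a, hac⟩ e.2.symm
      exact swapFun_eq_self (fun ⟨z, hz⟩ => (hnot z).1 hz) fun ⟨z, hz⟩ => (hnot z).2 hz
  · intro s hs
    rcases List.mem_append.1 hs with hs | hs
    · exact (hext s hs).2.1
    · obtain ⟨w, hw, rfl⟩ := List.mem_map.1 hs
      exact mem_bitWords.1 hw

/-- The table of the identity. -/
lemma table_one : IsTable M 1 [(([] : List Bool), ([] : List Bool), gid (Set.univ : Set X))] where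
  mem t ht := by
    rw [List.mem_singleton] at ht
    subst ht
    exact M.one_mem
  cover x := ⟨_, List.mem_singleton.2 rfl, x, (gdom_gidL Set.univ).symm ▸ Set.mem_univ x, rfl⟩
  apart := List.pairwise_singleton _ _
  graph t ht x y hxy := by
    rw [List.mem_singleton] at ht
    subst ht
    exact hxy.1

/-- Every element of the swap group has a table. -/
lemma exists_table {g : Equiv.Perm X} (hg : g ∈ swapGroup M) : ∃ T, IsTable M g T := by
  induction hg using Subgroup.closure_induction with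
  | mem x hx =>
    obtain ⟨b, rfl⟩ := hx
    exact exists_table_swap b
  | one => exact ⟨_, table_one⟩
  | inv x _ ih =>
    obtain ⟨T, hT⟩ := ih
    exact ⟨_, hT.flip⟩
  | mul x y _ _ ihx ihy =>
    obtain ⟨T₁, h1⟩ := ihx
    obtain ⟨T₂, h2⟩ := ihy
    obtain ⟨N₁, b1⟩ := exists_short T₁
    obtain ⟨N₂, b2⟩ := exists_short T₂
    obtain ⟨T₂', h2', u2, -⟩ := exists_unifR (M := M) (N := N₁ + N₂) (fun _ => True)
      (fun _ _ => trivial) (fun _ _ _ => trivial) h2 (fun t ht => by have := b2 t ht; omega) trivial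
    obtain ⟨T₁', h1', u1, -⟩ := exists_unifR (M := M) (N := N₁ + N₂) (fun _ => True)
      (fun _ _ => trivial) (fun _ _ _ => trivial) h1.flip (fun t ht => by
        have := short_flipT b1 t ht; omega) trivial
    obtain ⟨T, hT, -⟩ := h2'.comp (by simpa using h1'.flip) u2 (fun t ht => by
      obtain ⟨s, hs, rfl⟩ := List.mem_map.1 ht
      exact u1 s hs)
    exact ⟨T, hT⟩

end Vale.Agent.P193
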